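import Vale.Agent.P195.Algebra.Free

/-!
P195: vertices, window degrees and the names used by the later layers for the free algebra.
-/

namespace P195.Algebra

open MonoidAlgebra

namespace Gen

/-- The homological degree, as a natural number. -/
def deg : Gen → ℕ
  | x _ => 0
  | p _ => 0
  | r _ => 1
  | q _ => 1
  | z _ => 2

/-- The window degree. -/
def wt : Gen → ℕ
  | x _ => 0
  | p _ => 1
  | r _ => 1
  | q _ => 2
  | z _ => 2

/-- The source. -/
def src : Gen → Fin 2
  | x _ => 0
  | p _ => 1
  | r _ => 0
  | q _ => 1
  | z a => a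

/-- The target. -/
def tgt : Gen → Fin 2
  | x _ => 1
  | p _ => 0
  | r _ => 1
  | q _ => 0
  | z a => a

end Gen

/-- Composable words; words are read from right to left. -/
def Path : Fin 2 → Fin 2 → List Gen → Prop
  | a', a, [] => a' = a
  | a', a, g :: w => g.tgt = a' ∧ Path g.src a w

/-- Total homological degree of a word. -/
def wdeg (w : List Gen) : ℕ := (w.map Gen.deg).sum

/-- Total window degree of a monomial. -/
def mwt (m : M) : ℕ := Multiplicative.toAdd m.2 + ((FreeMonoid.toList m.1).map Gen.wt).sum

/-- Homological degree of a monomial. -/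
def mdeg (m : M) : ℕ := wdeg (FreeMonoid.toList m.1)

theorem degOf_eq (m : M) : degOf degHom m = (mdeg m : ℤ) := by
  obtain ⟨w, e⟩ := m
  induction w using FreeMonoid.inductionOn' with
  | one => simp [degOf, degHom, mdeg, wdeg]
  | of_mul g w ih =>
    have h : ((FreeMonoid.of g * w, e) : M) = (FreeMonoid.of g, 1) * (w, e) := by simp
    rw [h, degOf_mul, ih, degOf_of]
    cases g <;> simp [mdeg, wdeg, Gen.deg, Gen.dg]

variable (k : Type) [Field k]

/-- The central variable. -/
noncomputable abbrev tF : F k := tt

/-- A generator as an element. -/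
noncomputable abbrev gen (g : Gen) : F k := Algebra.X g

/-- Shorthands for the generators. -/
noncomputable abbrev gX (i : Fin 2) : F k := gen k (.x i)
/-- Generators `p`. -/
noncomputable abbrev gP (i : Fin 2) : F k := gen k (.p i)
/-- Generators `r`. -/
noncomputable abbrev gR (i : Fin 2) : F k := gen k (.r i)
/-- Generators `q`. -/
noncomputable abbrev gQ (i : Fin 2) : F k := gen k (.q i)
/-- Generators `z`. -/
noncomputable abbrev gZ (a : Fin 2) : F k := gen k (.z a)

/-- The sign automorphism. -/
noncomputable abbrev sg : F k →ₐ[k] F k := Algebra.J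

/-- The differential. -/
noncomputable abbrev dF : F k →ₗ[k] F k := Algebra.d

/-- The derivation of degree `-2`. -/
noncomputable abbrev DF : F k →ₗ[k] F k := Algebra.D

theorem tF_comm (a : F k) : Commute (tF k) a := tt_comm a

variable {k}

/-- Extend values on `t` and on the generators to an algebra map. -/
noncomputable def ext {A : Type} [Ring A] [Algebra k A] (T0 : A) (f : Gen → A)
    (h : ∀ a, Commute T0 a) : F k →ₐ[k] A :=
  MonoidAlgebra.lift k A M
    (MonoidHom.noncommCoprod (FreeMonoid.lift f) (powersHom A T0) fun w n => by
      simpa [powersHom_apply] using ((h _).pow_left _).symm)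

theorem ext_tF {A : Type} [Ring A] [Algebra k A] (T0 : A) (f : Gen → A) (h) :
    ext (k := k) T0 f h (tF k) = T0 := by
  simp [ext, tt]

theorem ext_gen {A : Type} [Ring A] [Algebra k A] (T0 : A) (f : Gen → A) (h) (g : Gen) :
    ext (k := k) T0 f h (gen k g) = f g := by
  simp [ext, Algebra.X]

/-- Induction over products of generators. -/
theorem F.induction {motive : F k → Prop} (a : F k) (one : motive 1) (t : motive (tF k))
    (gen : ∀ g, motive (gen k g)) (mul : ∀ a b, motive a → motive b → motive (a * b))
    (add : ∀ a b, motive a → motive b → motive (a + b))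
    (smul : ∀ (c : k) a, motive a → motive (c • a)) : motive a := by
  have ha : a ∈ _root_.Algebra.adjoin k (insert (tt : F k) (Set.range (Algebra.X (k := k)))) := by
    rw [adjoin_top]; trivial
  induction ha using _root_.Algebra.adjoin_induction with
  | mem x hx =>
    obtain rfl | ⟨g, rfl⟩ := hx
    · exact t
    · exact gen g
  | algebraMap c => rw [_root_.Algebra.algebraMap_eq_smul_one]; exact smul c 1 one
  | add x y _ _ hx hy => exact add x y hx hy
  | mul x y _ _ hx hy => exact mul x y hx hy

variable (k)

@[simp] theorem sg_gen (g : Gen) : sg k (gen k g) = ((-1 : k) ^ g.deg) • gen k g := by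
  rw [J_X]; cases g <;> rfl

@[simp] theorem sg_tF : sg k (tF k) = tF k := J_tt

theorem sg_single (m : M) (r : k) :
    sg k (MonoidAlgebra.single m r) = MonoidAlgebra.single m ((-1 : k) ^ mdeg m * r) := by
  show signJ degHom (MonoidAlgebra.single m r) = _
  rw [signJ_single, degOf_eq, MonoidAlgebra.smul_single, Int.natAbs_natCast, smul_eq_mul]

end P195.Algebra
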