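import Vale.Agent.P195.Algebra.GradeT
import Vale.Agent.P195.Window.Defs

/-!
P195, algebra seat: the window `T` is a finite-dimensional dg algebra of width 8.
-/

namespace P195.Algebra

variable (k : Type) [Field k]

theorem Gen.deg_le (g : Gen) : g.deg ≤ g.wt := by cases g <;> simp [Gen.deg, Gen.wt]

theorem mdeg_le (m : M) : mdeg m ≤ mwt m := by
  have h : ∀ w : List Gen, wdeg w ≤ (w.map Gen.wt).sum := by
    intro w
    induction w with
    | nil => simp [wdeg]
    | cons g w ih =>
      have := Gen.deg_le g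
      simp only [wdeg, List.map_cons, List.sum_cons] at ih ⊢
      omega
  have := h (FreeMonoid.toList m.1)
  simp only [mdeg, mwt]
  omega

theorem supF_filt {a' a : Fin 2} {D : ℤ} (n : ℤ) {x : F k} (hx : x ∈ supF k a' a D) :
    filtF k n x ∈ supF k a' a D := by
  rw [supF, MonoidAlgebra.mem_supported'] at hx ⊢
  intro m hm
  simp [filtF, part_apply, hx m hm]

theorem supF_sum {a' a : Fin 2} {D : ℤ} (hD : D ≤ 2) (s N : ℕ) (hs : s + 2 ≤ N) {x : F k}
    (hx : x ∈ supF k a' a D) : ∑ n ∈ Finset.range (N + 1), filtF k ((n : ℤ) - s) x = x := by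
  classical
  refine MonoidAlgebra.coeff_injective (Finsupp.ext fun m => ?_)
  rw [MonoidAlgebra.coeff_sum, Finsupp.finsetSum_apply]
  simp only [filtF, part_apply]
  by_cases hm : x.coeff m = 0
  · simp [hm]
  · have h := (MonoidAlgebra.mem_supported.1 hx) (Finsupp.mem_support_iff.2 hm)
    have h1 : (mwt m : ℤ) = D := h.2
    have h2 := mdeg_le m
    rw [Finset.sum_eq_single (mdeg m + s)]
    · simp [degOf_eq]
    · intro n _ hn
      rw [if_neg]
      rw [degOf_eq]; omega
    · intro hn
      rw [Finset.mem_range] at hn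
      omega

theorem supF_map {a' a : Fin 2} {D : ℤ} {f : F k →ₗ[k] F k} {p : F k →ₐ[k] F k}
    (hp : ∀ (g : Gen), p (gen k g) ∈ supF k g.tgt g.src g.wt)
    (hf : ∀ g : Gen, f (gen k g) ∈ supF k g.tgt g.src g.wt)
    (hmul : ∀ a b, f (a * b) = p a * f b + f a * b) (ht : f (tF k) = 0) {x : F k}
    (hx : x ∈ supF k a' a D) : f x ∈ supF k a' a D := by
  have h1 : f 1 = 0 := by
    have h := hmul 1 1
    rw [mul_one, map_one p, one_mul, mul_one] at h
    exact left_eq_add.mp h
  have hw : ∀ (w : List Gen) (a' a : Fin 2), Path a' a w →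
      f (MonoidAlgebra.single ((FreeMonoid.ofList w, 1) : M) 1) ∈
        supF k a' a ((w.map Gen.wt).sum : ℕ) := by
    intro w
    induction w with
    | nil =>
      intro a' a _
      have h : (MonoidAlgebra.single ((FreeMonoid.ofList [], 1) : M) (1 : k)) = 1 := rfl
      rw [h, h1]
      exact zero_mem _
    | cons g w ih =>
      intro a' a hpath
      obtain ⟨hg, hw⟩ := hpath
      subst hg
      have e : MonoidAlgebra.single ((FreeMonoid.ofList (g :: w), 1) : M) (1 : k)
          = gen k g * MonoidAlgebra.single ((FreeMonoid.ofList w, 1) : M) 1 := by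
        simp only [gen, Algebra.X, MonoidAlgebra.single_mul_single]
        simp [FreeMonoid.ofList_cons]
      rw [e, hmul, List.map_cons, List.sum_cons, Nat.cast_add]
      exact add_mem (supF_mul k (hp g) (ih _ _ hw))
        (supF_mul k (hf g) (supF_single k 1 ⟨by simpa using hw, by simp [mwt]⟩))
  rw [← MonoidAlgebra.sum_coeff_single x, map_finsuppSum]
  refine Submodule.sum_mem _ fun m hm => ?_
  obtain ⟨hpath, hwt⟩ := (MonoidAlgebra.mem_supported.1 hx) hm
  obtain ⟨w, n⟩ := m
  have e : MonoidAlgebra.single ((w, n) : M) (x.coeff (w, n))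
      = x.coeff (w, n) • (MonoidAlgebra.single ((w, 1) : M) 1
          * tF k ^ (Multiplicative.toAdd n)) := by
    simp only [tF, tt, MonoidAlgebra.single_pow, MonoidAlgebra.single_mul_single,
      MonoidAlgebra.smul_single]
    simp [← ofAdd_nsmul]
  show f (MonoidAlgebra.single ((w, n) : M) _) ∈ _
  rw [e, map_smul]
  refine Submodule.smul_mem _ _ ?_
  have htn : ∀ j : ℕ, f (tF k ^ j) = 0 := by
    intro j
    induction j with
    | zero => simpa using h1
    | succ j ih => rw [pow_succ, hmul, ih, ht, mul_zero, zero_mul, add_zero]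
  rw [hmul, htn, mul_zero, zero_add]
  have h := hw (FreeMonoid.toList w) a' a hpath
  simp only [FreeMonoid.ofList_toList] at h
  have htj : tF k ^ (Multiplicative.toAdd n) ∈ supF k a a (Multiplicative.toAdd n : ℕ) := by
    induction Multiplicative.toAdd n with
    | zero => simpa using supF_one k a
    | succ j ih =>
      rw [pow_succ, Nat.cast_succ]
      exact supF_mul k ih (supF_tF k a)
  have hh := supF_mul k h htj
  rw [← hwt, mwt]
  rwa [← Nat.cast_add, Nat.add_comm] at hh

theorem supF_neg_ite {a' a : Fin 2} {D : ℤ} {c : Prop} [Decidable c] {x y : F k}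
    (hx : x ∈ supF k a' a D) (hy : y ∈ supF k a' a D) :
    (if c then x else y) ∈ supF k a' a D := by split_ifs <;> assumption

theorem supF_dF {a' a : Fin 2} {D : ℤ} {x : F k} (hx : x ∈ supF k a' a D) :
    dF k x ∈ supF k a' a D := by
  refine supF_map k (p := sg k) (fun g => ?_) (fun g => ?_) d_mul d_tt hx
  · exact supF_sg k (supF_gen k g)
  · rw [d_X]
    have hX : ∀ g : Gen, (Algebra.X g : F k) ∈ supF k g.tgt g.src g.wt := supF_gen k
    have hx := fun i => hX (.x i)
    have hp := fun i => hX (.p i)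
    have hr := fun i => hX (.r i)
    have hq := fun i => hX (.q i)
    simp only [Gen.tgt, Gen.src, Gen.wt, Nat.cast_zero, Nat.cast_one, Nat.cast_ofNat] at hx hp hr hq
    have ht0 : (tt : F k) ∈ supF k 0 0 1 := supF_tF k 0
    have ht1 : (tt : F k) ∈ supF k 1 1 1 := supF_tF k 1
    rcases g with i | i | i | i | i <;> simp only [dX]
    · exact zero_mem _
    · exact zero_mem _
    · simp only [Gen.tgt, Gen.src, Gen.wt, Nat.cast_one]
      refine add_mem (sub_mem ?_ ?_) (supF_neg_ite k ?_ (neg_mem ?_))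
      · simpa using supF_mul k (supF_mul k (hx 0) (hp i)) (hx 1)
      · simpa using supF_mul k (supF_mul k (hx 1) (hp i)) (hx 0)
      · simpa using supF_mul k ht1 (hx 1)
      · simpa using supF_mul k ht1 (hx 0)
    · simp only [Gen.tgt, Gen.src, Gen.wt, Nat.cast_ofNat]
      refine add_mem (sub_mem ?_ ?_) (supF_neg_ite k (neg_mem ?_) ?_)
      · simpa using supF_mul k (supF_mul k (hp 0) (hx i)) (hp 1)
      · simpa using supF_mul k (supF_mul k (hp 1) (hx i)) (hp 0)
      · simpa using supF_mul k ht0 (hp 1)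
      · simpa using supF_mul k ht0 (hp 0)
    · simp only [Gen.tgt, Gen.src, Gen.wt, Nat.cast_ofNat]
      fin_cases i
      · refine add_mem (sub_mem (sub_mem ?_ ?_) ?_) ?_
        · simpa using supF_mul k (hp 0) (hr 1)
        · simpa using supF_mul k (hp 1) (hr 0)
        · simpa using supF_mul k (hq 0) (hx 1)
        · simpa using supF_mul k (hq 1) (hx 0)
      · refine add_mem (sub_mem (sub_mem ?_ ?_) ?_) ?_
        · simpa using supF_mul k (hr 0) (hp 1)
        · simpa using supF_mul k (hr 1) (hp 0)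
        · simpa using supF_mul k (hx 0) (hq 1)
        · simpa using supF_mul k (hx 1) (hq 0)

theorem supF_DF {a' a : Fin 2} {D : ℤ} {x : F k} (hx : x ∈ supF k a' a D) :
    DF k x ∈ supF k a' a D := by
  refine supF_map k (p := AlgHom.id k (F k)) (fun g => supF_gen k g) (fun g => ?_) D_mul D_tt hx
  rw [D_X]
  rcases g with i | i | i | i | i <;> simp only [DX] <;> try exact zero_mem _
  have h := supF_mul k (supF_tF k i) (supF_tF k i)
  split_ifs
  · simpa [Gen.tgt, Gen.src, Gen.wt] using neg_mem h
  · simpa [Gen.tgt, Gen.src, Gen.wt] using h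

theorem supL_dL {a' a : Fin 2} {D : ℤ} {x : Lam k} (hx : x ∈ supL k a' a D) :
    dL k x ∈ supL k a' a D := by
  rw [mem_supL] at hx ⊢
  rw [dL_re, dL_im]
  exact ⟨supF_dF k hx.1, add_mem (supF_sg k (supF_DF k hx.1)) (supF_dF k hx.2)⟩

theorem supL_sgL {a' a : Fin 2} {D : ℤ} {x : Lam k} (hx : x ∈ supL k a' a D) :
    sgL k x ∈ supL k a' a D := by
  rw [mem_supL] at hx ⊢
  rw [sgL_re, sgL_im]
  exact ⟨supF_sg k hx.1, neg_mem (supF_sg k hx.2)⟩

theorem supL_filt {a' a : Fin 2} {D : ℤ} (n : ℤ) {x : Lam k} (hx : x ∈ supL k a' a D) :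
    filtL k n x ∈ supL k a' a D := by
  rw [mem_supL] at hx ⊢
  simpa [filtL] using ⟨supF_filt k n hx.1, supF_filt k (n - 1) hx.2⟩

theorem supT_filt {v' v : Vtx} (n : ℤ) {x : Tinf k} (hx : x ∈ supT k v' v) :
    filtT k n x ∈ supT k v' v := by
  rw [mem_supT] at hx ⊢
  refine ⟨by simpa [filtT] using supL_filt k n hx.1, (mem_supRow k).2 fun c => ?_⟩
  have h := (mem_supRow k).1 hx.2 c
  split_ifs with hc
  · rw [if_pos hc] at h; simpa [filtT] using supL_filt k _ h
  · rw [if_neg hc, Submodule.mem_bot] at h; simp [filtT, h]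

theorem supT_sgT {v' v : Vtx} {x : Tinf k} (hx : x ∈ supT k v' v) :
    sgT k x ∈ supT k v' v := by
  rw [mem_supT] at hx ⊢
  refine ⟨by simpa using supL_sgL k hx.1, (mem_supRow k).2 fun c => ?_⟩
  have h := (mem_supRow k).1 hx.2 c
  split_ifs with hc
  · rw [if_pos hc] at h; simpa [sgT] using Submodule.smul_mem _ _ (supL_sgL k h)
  · rw [if_neg hc, Submodule.mem_bot] at h; simp [sgT, h]

theorem supT_dT {v' v : Vtx} {x : Tinf k} (hx : x ∈ supT k v' v) :
    dT k x ∈ supT k v' v := by
  rw [mem_supT] at hx ⊢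
  refine ⟨by simpa using supL_dL k hx.1, (mem_supRow k).2 fun c => ?_⟩
  have h := (mem_supRow k).1 hx.2
  rw [← Tinf.cells_apply, dT_cells, Pi.add_apply, dRow_apply]
  refine add_mem ?_ ?_
  · have hc0 := h c
    split_ifs with hc
    · rw [if_pos hc] at hc0; exact supL_dL k hc0
    · rw [if_neg hc, Submodule.mem_bot] at hc0; simp [hc0]
  · simp only [Matrix.vecMul, dotProduct, sgRow_apply, Tinf.cells_apply]
    refine Submodule.sum_mem _ fun j _ => ?_
    have hj := h j
    by_cases h0 : Nm k j c = 0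
    · rw [h0, mul_zero]; exact zero_mem _
    rcases j with _ | i | _ <;> rcases c with _ | i' | _ <;>
      first
      | exact absurd rfl h0
      | skip
    by_cases hr : LC.rv LC.H = v.1
    · rw [if_pos hr] at hj
      have hr' : LC.rv (LC.F i') = v.1 := hr
      rw [if_pos hr']
      fin_cases i'
      · have := supL_mul k (supL_sgL k hj) (supL_of k (supF_gen k (.x 1)))
        simpa [Nm, LC.lv, Gen.tgt, Gen.src, Gen.wt] using this
      · have := supL_mul k (supL_sgL k hj) (neg_mem (supL_of k (supF_gen k (.x 0))))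
        simpa [Nm, LC.lv, Gen.tgt, Gen.src, Gen.wt] using this
    · rw [if_neg hr, Submodule.mem_bot] at hj
      simp [hj]

theorem supT_sum {v' v : Vtx} {x : Tinf k} (hx : x ∈ supT k v' v) :
    ∑ n ∈ Finset.range (8 + 1), filtT k n x = x := by
  rw [mem_supT] at hx
  have hD : (v'.2.val : ℤ) - v.2.val ≤ 2 := by have := v'.2.isLt; omega
  obtain ⟨h1, h2⟩ := hx
  refine Tinf.ext ?_ (funext fun c => ?_)
  · rw [map_sum]
    refine Lam.ext ?_ ?_
    · simpa [filtT, filtL] using supF_sum k hD 0 8 (by norm_num) h1.1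
    · simpa [filtT, filtL] using supF_sum k hD 1 8 (by norm_num) h1.2
  · rw [map_sum, Finset.sum_apply]
    have h := (mem_supRow k).1 h2 c
    by_cases hc : LC.rv c = v.1
    · rw [if_pos hc] at h
      refine Lam.ext ?_ ?_
      · have e := supF_sum k hD (4 + c.deg) 8 (by cases c <;> simp [LC.deg]) h.1
        simpa [filtT, filtL, sub_sub] using e
      · have e := supF_sum k hD (4 + c.deg + 1) 8 (by cases c <;> simp [LC.deg]) h.2
        simpa [filtT, filtL, sub_sub, add_assoc] using e
    · rw [if_neg hc, Submodule.mem_bot] at h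
      simp [filtT, h]

theorem length_le : ∀ (w : List Gen) (a' a : Fin 2), Path a' a w →
    w.length ≤ 2 * (w.map Gen.wt).sum + (if a' = 1 then 1 else 0)
  | [], _, _, _ => by simp
  | g :: w, a', a, ⟨hg, hw⟩ => by
    have ih := length_le w g.src a hw
    subst hg
    rcases g with i | i | i | i | i <;> fin_cases i <;>
      simp [Gen.src, Gen.tgt, Gen.wt] at ih ⊢ <;> omega

theorem supSet_finite (a' a : Fin 2) (D : ℤ) : (supSet a' a D).Finite := by
  let N := D.toNat
  refine ((((List.finite_length_le Gen (2 * N + 1)).prod (Set.finite_Iic N)).image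
    fun p => ((FreeMonoid.ofList p.1, Multiplicative.ofAdd p.2) : M))).subset ?_
  rintro ⟨w, n⟩ ⟨hp, hw⟩
  have := length_le (FreeMonoid.toList w) a' a hp
  simp only [mwt] at hw
  refine ⟨(FreeMonoid.toList w, Multiplicative.toAdd n), ⟨?_, ?_⟩, by simp⟩
  · simp only [Set.mem_ofPred_eq]
    split_ifs at this <;> omega
  · simp only [Set.mem_Iic]
    omega

/-- The entries of an element, one by one. -/
noncomputable def T.coords : T k →ₗ[k]
    ((v' : Vtx) → (v : Vtx) → (supL k v'.1 v.1 ((v'.2.val : ℤ) - v.2.val)) ×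
      ((c : LC) → (supL k v'.1 (LC.lv c) ((v'.2.val : ℤ) - v.2.val)))) where
  toFun x v' v := (⟨Tinf.lam k (x.1 v' v), ((mem_supT k).1 (x.2 v' v)).1⟩,
    fun c => ⟨Tinf.cell k c (x.1 v' v), by
      have h := (mem_supRow k).1 ((mem_supT k).1 (x.2 v' v)).2 c
      split_ifs at h with hc
      · exact h
      · rw [Submodule.mem_bot] at h; rw [h]; exact zero_mem _⟩)
  map_add' x y := by
    funext v' v
    refine Prod.ext (Subtype.ext ?_) (funext fun c => Subtype.ext ?_) <;> simp
  map_smul' r x := by
    funext v' v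
    refine Prod.ext (Subtype.ext ?_) (funext fun c => Subtype.ext ?_) <;> simp

instance supF_finite (a' a : Fin 2) (D : ℤ) : Module.Finite k (supF k a' a D) := by
  have := (supSet_finite a' a D).to_subtype
  exact Module.Finite.equiv (MonoidAlgebra.supportedEquivFinsupp (supSet a' a D)).symm

instance supL_finite (a' a : Fin 2) (D : ℤ) : Module.Finite k (supL k a' a D) :=
  Module.Finite.of_injective
    ({ toFun := fun x => ((⟨Lam.re k x.1, x.2.1⟩ : supF k a' a D),
          (⟨Lam.im k x.1, x.2.2⟩ : supF k a' a D))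
       map_add' := fun x y => by ext <;> simp
       map_smul' := fun r x => by ext <;> simp } :
      supL k a' a D →ₗ[k] supF k a' a D × supF k a' a D)
    fun x y h => Subtype.ext (Lam.ext (congrArg (fun p => p.1.1) h) (congrArg (fun p => p.2.1) h))

instance T.finite : FiniteDimensional k (T k) := by
  refine Module.Finite.of_injective (T.coords k) fun x y h => ?_
  refine Subtype.ext (Matrix.ext fun v' v => ?_)
  have h' := congrFun (congrFun h v') v
  exact Tinf.ext (congrArg (fun p => p.1.1) h') (funext fun c => congrArg (fun p => (p.2 c).1) h')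

open Window in
/-- An entrywise map on `T`. -/
noncomputable def T.lift (f : Tinf k →ₗ[k] Tinf k)
    (hf : ∀ {v' v : Vtx} {x : Tinf k}, x ∈ supT k v' v → f x ∈ supT k v' v) : T k →ₗ[k] T k where
  toFun x := ⟨x.1.map f, fun v' v => hf (x.2 v' v)⟩
  map_add' x y := Subtype.ext (Matrix.ext fun v' v => map_add f (x.1 v' v) (y.1 v' v))
  map_smul' r x := Subtype.ext (Matrix.ext fun v' v => map_smul f r (x.1 v' v))

@[simp] theorem T.lift_val (f : Tinf k →ₗ[k] Tinf k)
    (hf : ∀ {v' v : Vtx} {x : Tinf k}, x ∈ supT k v' v → f x ∈ supT k v' v) (x : T k)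
    (v' v : Vtx) : (T.lift k f hf x).1 v' v = f (x.1 v' v) := rfl

/-- The sign automorphism of `T`. -/
noncomputable def T.sign : T k →ₐ[k] T k :=
  AlgHom.ofLinearMap (T.lift k (sgT k) (supT_sgT k))
    (Subtype.ext (Matrix.ext fun v' v => by
      show sgT k ((1 : Matrix Vtx Vtx (Tinf k)) v' v) = (1 : Matrix Vtx Vtx (Tinf k)) v' v
      rw [Matrix.one_apply]
      split_ifs
      · exact sgT_one k
      · exact map_zero _))
    fun x y => Subtype.ext (Matrix.ext fun v' v => by
      show sgT k ((x.1 * y.1) v' v) = ((x.1.map (sgT k)) * (y.1.map (sgT k))) v' v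
      simp [Matrix.mul_apply, sgT_mul])

/-- The dg algebra `T`. -/
noncomputable def dga : Window.DGA k (T k) where
  width := width
  pr n := T.lift k (filtT k n) (supT_filt k n)
  pr_pr m n x := by
    refine Subtype.ext (Matrix.ext fun v' v => ?_)
    show filtT k m (filtT k n (x.1 v' v)) = _
    rw [filtT_filtT]
    split_ifs <;> rfl
  sum_pr x := by
    refine Subtype.ext (Matrix.ext fun v' v => ?_)
    rw [AddSubmonoidClass.coe_finsetSum, Matrix.sum_apply]
    exact supT_sum k (x.2 v' v)
  one_mem := by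
    refine Subtype.ext (Matrix.ext fun v' v => ?_)
    show filtT k 0 ((1 : Matrix Vtx Vtx (Tinf k)) v' v) = (1 : Matrix Vtx Vtx (Tinf k)) v' v
    rw [Matrix.one_apply]
    split_ifs
    · exact homT_one k
    · exact map_zero _
  mul_mem m n a b ha hb := by
    refine Subtype.ext (Matrix.ext fun v' v => ?_)
    show filtT k (m + n) ((a.1 * b.1) v' v) = (a.1 * b.1) v' v
    rw [Matrix.mul_apply, map_sum]
    exact Finset.sum_congr rfl fun j _ => HomT.mul k
      (congrArg (fun z : T k => z.1 v' j) ha) (congrArg (fun z : T k => z.1 j v) hb)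
  d := T.lift k (dT k) (supT_dT k)
  J := T.sign k
  J_apply n a ha := by
    refine Subtype.ext (Matrix.ext fun v' v => ?_)
    show sgT k (a.1 v' v) = ((-1 : k) ^ n) • a.1 v' v
    have h := HomT.sgT k (n := (n : ℤ)) (congrArg (fun z : T k => z.1 v' v) ha)
    simpa using h
  d_mem n a ha := by
    refine Subtype.ext (Matrix.ext fun v' v => ?_)
    exact dT_hom k (congrArg (fun z : T k => z.1 v' v) ha)
  d_d a := Subtype.ext (Matrix.ext fun v' v => dT_dT k (a.1 v' v))
  d_mul a b := by
    refine Subtype.ext (Matrix.ext fun v' v => ?_)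
    show dT k ((a.1 * b.1) v' v) =
      ((a.1.map (dT k)) * b.1 + (a.1.map (sgT k)) * (b.1.map (dT k))) v' v
    simp only [Matrix.add_apply, Matrix.mul_apply, Matrix.map_apply, map_sum,
      ← Finset.sum_add_distrib]
    exact Finset.sum_congr rfl fun j _ => dT_mul k (a.2 v' j) (b.2 j v)

@[simp] theorem dga_width : (dga k).width = 8 := rfl

@[simp] theorem entry_pr (n : ℤ) (x : T k) (v' v : Vtx) :
    T.entry k v' v ((dga k).pr n x) = filtT k n (T.entry k v' v x) := rfl

@[simp] theorem entry_J (x : T k) (v' v : Vtx) :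
    T.entry k v' v ((dga k).J x) = sgT k (T.entry k v' v x) := rfl

@[simp] theorem entry_d (x : T k) (v' v : Vtx) :
    T.entry k v' v ((dga k).d x) = dT k (T.entry k v' v x) := rfl

theorem pr_single (n : ℤ) (v' v : Vtx) (x : supT k v' v) :
    (dga k).pr n (T.single k v' v x) = T.single k v' v ⟨filtT k n x.1, supT_filt k n x.2⟩ := by
  refine Subtype.ext (Matrix.ext fun i j => ?_)
  show filtT k n (Matrix.single v' v x.1 i j) = Matrix.single v' v (filtT k n x.1) i j
  simp only [Matrix.single_apply]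
  split_ifs <;> simp

theorem d_single (v' v : Vtx) (x : supT k v' v) :
    (dga k).d (T.single k v' v x) = T.single k v' v ⟨dT k x.1, supT_dT k x.2⟩ := by
  refine Subtype.ext (Matrix.ext fun i j => ?_)
  show dT k (Matrix.single v' v x.1 i j) = Matrix.single v' v (dT k x.1) i j
  simp only [Matrix.single_apply]
  split_ifs <;> simp

theorem J_single (v' v : Vtx) (x : supT k v' v) :
    (dga k).J (T.single k v' v x) = T.single k v' v ⟨sgT k x.1, supT_sgT k x.2⟩ := by
  refine Subtype.ext (Matrix.ext fun i j => ?_)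
  show sgT k (Matrix.single v' v x.1 i j) = Matrix.single v' v (sgT k x.1) i j
  simp only [Matrix.single_apply]
  split_ifs <;> simp

end P195.Algebra
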