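import Vale.Agent.P195.Algebra.Model

/-!
P195, algebra seat: identities for the differential and the sign on `Λ` and on `T∞`.
-/

namespace P195.Algebra

variable (k : Type) [Field k]

theorem dF_sg (a : F k) : dF k (sg k a) = -sg k (dF k a) :=
  eq_neg_of_add_eq_zero_right (J_d a)

theorem sg_sg (a : F k) : sg k (sg k a) = a := by
  induction a using F.induction with
  | one => simp
  | t => simp
  | gen g => simp [smul_smul, ← pow_add, ← two_mul]
  | mul a b ha hb => simp [ha, hb]
  | add a b ha hb => simp [ha, hb]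
  | smul c a ha => simp [ha]

@[simp] theorem dF_one : dF k (1 : F k) = 0 := by
  have h := d_mul (1 : F k) 1
  simpa using h

@[simp] theorem DF_one : DF k (1 : F k) = 0 := by
  have h := D_mul (1 : F k) 1
  simpa using h

@[simp] theorem dL_re (x : Lam k) : Lam.re k (dL k x) = dF k (Lam.re k x) := by simp [dL]
@[simp] theorem dL_im (x : Lam k) :
    Lam.im k (dL k x) = sg k (DF k (Lam.re k x)) + dF k (Lam.im k x) := by simp [dL]
@[simp] theorem sgL_re (x : Lam k) : Lam.re k (sgL k x) = sg k (Lam.re k x) := by simp [sgL]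
@[simp] theorem sgL_im (x : Lam k) : Lam.im k (sgL k x) = -sg k (Lam.im k x) := by simp [sgL]

theorem sgL_mul (x y : Lam k) : sgL k (x * y) = sgL k x * sgL k y := by
  refine Lam.ext (by simp) ?_
  simp [sg_sg]
  abel

@[simp] theorem sgL_one : sgL k (1 : Lam k) = 1 := Lam.ext (by simp) (by simp)

/-- The sign of `Λ` as an algebra map. -/
noncomputable def sgLA : Lam k →ₐ[k] Lam k := AlgHom.ofLinearMap (sgL k) (sgL_one k) (sgL_mul k)

@[simp] theorem sgLA_apply (x : Lam k) : sgLA k x = sgL k x := rfl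

@[simp] theorem sgL_sgL (x : Lam k) : sgL k (sgL k x) = x :=
  Lam.ext (by simp [sg_sg]) (by simp [sg_sg])

theorem dL_mul (x y : Lam k) : dL k (x * y) = dL k x * y + sgL k x * dL k y := by
  refine Lam.ext ?_ ?_
  · simp [d_mul, add_comm]
  · simp only [dL_im, dL_re, sgL_re, sgL_im, Lam.im_mul, Lam.re_mul, map_add, d_mul, D_mul,
      map_mul, dF_sg]
    noncomm_ring

theorem dL_sgL (x : Lam k) : dL k (sgL k x) = -sgL k (dL k x) := by
  refine Lam.ext ?_ ?_
  · simp [dF_sg]
  · simp only [dL_im, sgL_re, sgL_im, map_neg, dF_sg, ← J_D, map_add, sg_sg]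
    abel

theorem dL_dL (x : Lam k) : dL k (dL k x) = 0 := by
  refine Lam.ext ?_ ?_
  · simp [d_d]
  · simp only [dL_im, dL_re, map_add, d_d, dF_sg, d_D, add_zero, map_zero]
    abel

@[simp] theorem sgL_of (a : F k) : sgL k (Lam.of k a) = Lam.of k (sg k a) :=
  Lam.ext (by simp) (by simp)

@[simp] theorem dL_u : dL k (Lam.u k) = 0 := Lam.ext (by simp [Lam.u]) (by simp [Lam.u])
@[simp] theorem sgL_u : sgL k (Lam.u k) = -Lam.u k :=
  Lam.ext (by simp [Lam.u]) (by simp [Lam.u])

theorem Nm_sg (c c' : LC) : sgL k (Nm k c c') = Nm k c c' := by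
  cases c <;> cases c' <;> simp [Nm] <;> split_ifs <;> simp [gX, Gen.deg]

theorem dL_Nm (c c' : LC) : dL k (Nm k c c') = 0 := by
  cases c <;> cases c' <;> simp [Nm] <;> split_ifs <;>
    refine Lam.ext ?_ ?_ <;> simp [gX, d_X, D_X, dX, DX]

theorem Nm_sq : Nm k * Nm k = 0 := by
  ext c c' : 1
  rw [Matrix.mul_apply]
  refine Finset.sum_eq_zero fun c'' _ => ?_
  cases c <;> cases c'' <;> simp [Nm]

/-- `dL` entrywise. -/
noncomputable def dMx : Matrix LC LC (Lam k) →ₗ[k] Matrix LC LC (Lam k) where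
  toFun A := A.map (dL k)
  map_add' A B := by ext c c' <;> simp
  map_smul' r A := by ext c c' <;> simp

/-- The sign entrywise. -/
noncomputable def sgMx : Matrix LC LC (Lam k) →ₐ[k] Matrix LC LC (Lam k) := (sgLA k).mapMatrix

@[simp] theorem dMx_apply (A : Matrix LC LC (Lam k)) (c c' : LC) :
    dMx k A c c' = dL k (A c c') := rfl

@[simp] theorem sgMx_apply (A : Matrix LC LC (Lam k)) (c c' : LC) :
    sgMx k A c c' = sgL k (A c c') := rfl

theorem dMx_mul (A B : Matrix LC LC (Lam k)) :
    dMx k (A * B) = dMx k A * B + sgMx k A * dMx k B := by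
  ext c c' : 1
  simp [Matrix.mul_apply, Matrix.add_apply, dL_mul, Finset.sum_add_distrib]

theorem dMx_one : dMx k (1 : Matrix LC LC (Lam k)) = 0 := by
  have h := dMx_mul k (1 : Matrix LC LC (Lam k)) 1
  simpa using h

/-- The signs of the cells. -/
noncomputable def Jm : Matrix LC LC (Lam k) := Matrix.diagonal fun c => LC.sgn k c • (1 : Lam k)

theorem Jm_sq : Jm k * Jm k = 1 := by
  simp [Jm, Matrix.diagonal_mul_diagonal, smul_smul, LC.sgn_mul_self]

/-- `Φ` and the sign. -/
theorem sgMx_phiF (a : F k) : sgMx k (phiF k a) * Jm k = Jm k * phiF k (sg k a) := by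
  induction a using F.induction with
  | one => simp
  | t =>
    rw [sg_tF, phiF_tF]
    ext c c' : 1
    simp [Jm, Matrix.diagonal_apply]
    split_ifs with h <;> simp [sg_tF, h]
  | gen g =>
    rw [sg_gen, map_smul, phiF_gen]
    ext c c' : 1
    simp only [Jm, sgMx_apply, Matrix.diagonal_mul, Matrix.mul_diagonal, Matrix.smul_apply,
      mul_smul_comm, smul_mul_assoc, mul_one, one_mul]
    cases g <;> cases c <;> cases c' <;>
      simp [phiGen, LC.sgn, LC.deg, Gen.deg] <;>
      (refine Lam.ext ?_ ?_) <;> simp [Gen.deg] <;> split_ifs <;> simp [Gen.deg]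
  | mul a b ha hb =>
    rw [map_mul, map_mul, map_mul, map_mul, mul_assoc, hb, ← mul_assoc, ha, mul_assoc]
  | add a b ha hb => rw [map_add, map_add, map_add, map_add, add_mul, mul_add, ha, hb]
  | smul c a ha => rw [map_smul, map_smul, map_smul, map_smul, smul_mul_assoc, mul_smul_comm, ha]

theorem sgMx_phiU : sgMx k (phiU k) = -phiU k := by
  ext c c' : 1
  simp [phiU, Matrix.diagonal_apply]
  split_ifs <;> simp

/-- `Φ` and the sign on all of `Λ`. -/
theorem sgMx_phiL (x : Lam k) : sgMx k (phiL k x) * Jm k = Jm k * phiL k (sgL k x) := by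
  have hUJ : phiU k * Jm k = Jm k * phiU k := by
    simp [phiU, Jm, Matrix.diagonal_mul_diagonal, smul_smul, mul_comm]
  simp only [phiL_apply, phiFun, sgL_re, sgL_im, map_add, map_neg, map_mul, sgMx_phiU,
    add_mul, mul_add, neg_mul, mul_neg, mul_assoc, hUJ]
  rw [sgMx_phiF, ← mul_assoc, sgMx_phiF, mul_assoc]

end P195.Algebra
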