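import Mathlib

/-!
P195, algebra seat: the grading of a monoid algebra by a monoid homomorphism into the integers,
its projections and sign automorphism, and transport of homogeneity along linear maps.
-/

namespace P195.Algebra

open MonoidAlgebra

variable {k M : Type} [Field k] [Monoid M] (δ : M →* Multiplicative ℤ)

/-- The degree of a monomial. -/
def degOf (m : M) : ℤ := (δ m).toAdd

lemma degOf_mul (a b : M) : degOf δ (a * b) = degOf δ a + degOf δ b := by simp [degOf]

/-- Projection to degree `n`. -/
noncomputable def part (n : ℤ) : MonoidAlgebra k M →ₗ[k] MonoidAlgebra k M where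
  toFun x := ofCoeff (x.coeff.filter fun m => degOf δ m = n)
  map_add' x y := by
    rw [coeff_add, Finsupp.filter_add, ofCoeff_add]
  map_smul' c x := by
    refine coeff_injective (Finsupp.ext fun m => ?_)
    simp only [coeff_ofCoeff, coeff_smul, RingHom.id_apply, Finsupp.filter_apply,
      Finsupp.smul_apply]
    split <;> simp

lemma part_apply (n : ℤ) (x : MonoidAlgebra k M) (m : M) :
    (part δ n x).coeff m = if degOf δ m = n then x.coeff m else 0 := by
  simp [part, Finsupp.filter_apply]

lemma part_single (n : ℤ) (m : M) (r : k) :
    part δ n (single m r) = if degOf δ m = n then single m r else 0 := by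
  refine coeff_injective (Finsupp.ext fun a => ?_)
  rw [part_apply]
  by_cases h : m = a
  · subst h; split <;> simp
  · split_ifs <;> simp [Ne.symm h]

lemma part_part (a b : ℤ) (x : MonoidAlgebra k M) :
    part δ a (part δ b x) = if a = b then part δ b x else 0 := by
  refine coeff_injective (Finsupp.ext fun m => ?_)
  rw [part_apply, part_apply]
  split_ifs <;> simp_all [part_apply]

lemma part_one : part δ 0 (1 : MonoidAlgebra k M) = 1 := by
  rw [MonoidAlgebra.one_def, part_single, if_pos]
  simp [degOf]

lemma part_mul (a b : ℤ) (x y : MonoidAlgebra k M) :
    part δ (a + b) (part δ a x * part δ b y) = part δ a x * part δ b y := by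
  induction x using MonoidAlgebra.induction_linear with
  | zero => simp
  | add u v hu hv => simp [add_mul, hu, hv]
  | single m r =>
    induction y using MonoidAlgebra.induction_linear with
    | zero => simp
    | add u v hu hv => simp [mul_add, hu, hv]
    | single m' r' =>
      rw [part_single, part_single]
      split_ifs with h h'
      · rw [single_mul_single, part_single, if_pos (by rw [degOf_mul, h, h'])]
      · simp
      · simp
      · simp

lemma part_mul_mem {a b : ℤ} {x y : MonoidAlgebra k M} (hx : part δ a x = x) (hy : part δ b y = y) :
    part δ (a + b) (x * y) = x * y := by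
  rw [← hx, ← hy, part_mul]

/-- The sign of a monomial. -/
def signHom : M →* k where
  toFun m := (-1 : k) ^ (degOf δ m).natAbs
  map_one' := by simp [degOf]
  map_mul' a b := by
    rw [degOf_mul, ← pow_add]
    apply neg_one_pow_congr
    rw [Int.natAbs_even, Nat.even_add, Int.natAbs_even, Int.natAbs_even, Int.even_add]

/-- The sign automorphism. -/
noncomputable def signJ : MonoidAlgebra k M →ₐ[k] MonoidAlgebra k M :=
  lift k (MonoidAlgebra k M) M
    { toFun := fun m => single m (signHom (k := k) δ m)
      map_one' := by simp [MonoidAlgebra.one_def]
      map_mul' := fun a b => by simp [single_mul_single] }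

lemma signJ_single (m : M) (r : k) :
    signJ δ (single m r) = (-1 : k) ^ (degOf δ m).natAbs • single m r := by
  refine coeff_injective ?_
  simp [signJ, signHom, mul_comm]

lemma signJ_part (n : ℤ) (x : MonoidAlgebra k M) :
    signJ δ (part δ n x) = (-1 : k) ^ n.natAbs • part δ n x := by
  induction x using MonoidAlgebra.induction_linear with
  | zero => simp
  | add u v hu hv => simp [smul_add, hu, hv]
  | single m r =>
    rw [part_single]
    split_ifs with h
    · rw [signJ_single, h]
    · simp

lemma signJ_apply (n : ℤ) (x : MonoidAlgebra k M) (hx : part δ n x = x) :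
    signJ δ x = (-1 : k) ^ n.natAbs • x := by
  rw [← hx, signJ_part, hx]

/-- A linear map which is homogeneous of degree `c` on monomials is homogeneous. -/
lemma map_part {N : Type} [AddCommGroup N] [Module k N] (q : ℤ → N →ₗ[k] N) (c : ℤ)
    (f : MonoidAlgebra k M →ₗ[k] N)
    (h : ∀ m, q (degOf δ m + c) (f (single m 1)) = f (single m 1)) (n : ℤ)
    (x : MonoidAlgebra k M) : q (n + c) (f (part δ n x)) = f (part δ n x) := by
  induction x using MonoidAlgebra.induction_linear with
  | zero => simp
  | add u v hu hv => simp [hu, hv]
  | single m r =>
    rw [part_single]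
    split_ifs with e
    · have : single m r = r • (single m 1 : MonoidAlgebra k M) := by
        refine coeff_injective ?_; simp
      rw [this, map_smul, map_smul, ← e, h]
    · simp

end P195.Algebra
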