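import Vale.Agent.P195.Algebra.Kit
import Vale.Agent.P195.Algebra.Graded

/-! P195, algebra seat, free layer: F = k[t] ⊗ free algebra on the ten letters, with d and D. -/

namespace P195.Algebra

open MonoidAlgebra

inductive Gen
  | x (i : Fin 2)
  | p (i : Fin 2)
  | r (i : Fin 2)
  | q (i : Fin 2)
  | z (a : Fin 2)
  deriving DecidableEq, Fintype

def Gen.dg : Gen → ℤ
  | .x _ => 0
  | .p _ => 0
  | .r _ => 1
  | .q _ => 1
  | .z _ => 2

abbrev M := FreeMonoid Gen × Multiplicative ℕ

variable (k : Type) [Field k]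

abbrev F := MonoidAlgebra k M

noncomputable def degHom : M →* Multiplicative ℤ :=
  (FreeMonoid.lift fun g => Multiplicative.ofAdd g.dg).comp (MonoidHom.fst _ _)

variable {k}

noncomputable def X (g : Gen) : F k := single (FreeMonoid.of g, 1) 1

noncomputable def tt : F k := single (1, Multiplicative.ofAdd 1) 1

lemma tt_comm (a : F k) : Commute (tt : F k) a := by
  induction a using MonoidAlgebra.induction_linear with
  | zero => exact Commute.zero_right _
  | add u v hu hv => exact hu.add_right hv
  | single m r =>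
    obtain ⟨w, e⟩ := m
    simp [Commute, SemiconjBy, tt, single_mul_single, mul_comm]

lemma adjoin_top : Algebra.adjoin k (insert (tt : F k) (Set.range (X (k := k)))) = ⊤ := by
  rw [eq_top_iff]
  rintro a -
  induction a using MonoidAlgebra.induction_linear with
  | zero => exact zero_mem _
  | add u v hu hv => exact add_mem hu hv
  | single m r =>
    obtain ⟨w, e⟩ := m
    have hw : (single (w, 1) (1 : k) : F k) ∈ Algebra.adjoin k (insert (tt : F k) (Set.range X)) := by
      induction w using FreeMonoid.inductionOn' with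
      | one => exact one_mem _
      | of_mul g w ih =>
        have h2 : (single (FreeMonoid.of g * w, 1) (1 : k) : F k) = X g * single (w, 1) 1 := by
          simp [X, single_mul_single]
        rw [h2]
        exact mul_mem (Algebra.subset_adjoin (Or.inr ⟨g, rfl⟩)) ih
    have ht : (single (w, e) r : F k) = r • (single (w, 1) 1 * tt ^ e.toAdd) := by
      rw [tt, single_pow, single_mul_single]
      refine coeff_injective ?_
      simp [← ofAdd_nsmul]
    rw [ht]
    exact Subalgebra.smul_mem _ (mul_mem hw (pow_mem (Algebra.subset_adjoin (Set.mem_insert _ _)) _)) r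

/-- The differential on letters. -/
noncomputable def dX : Gen → F k
  | .x _ => 0
  | .p _ => 0
  | .r i => X (.x 0) * X (.p i) * X (.x 1) - X (.x 1) * X (.p i) * X (.x 0)
      + (if i = 0 then tt * X (.x 1) else -(tt * X (.x 0)))
  | .q i => X (.p 0) * X (.x i) * X (.p 1) - X (.p 1) * X (.x i) * X (.p 0)
      + (if i = 0 then -(tt * X (.p 1)) else tt * X (.p 0))
  | .z a => if a = 0 then
      X (.p 0) * X (.r 1) - X (.p 1) * X (.r 0) - X (.q 0) * X (.x 1) + X (.q 1) * X (.x 0)
    else
      X (.r 0) * X (.p 1) - X (.r 1) * X (.p 0) - X (.x 0) * X (.q 1) + X (.x 1) * X (.q 0)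

/-- The even derivation of degree -2 on letters. -/
noncomputable def DX : Gen → F k
  | .z a => if a = 0 then -(tt * tt) else tt * tt
  | _ => 0

noncomputable def triHom (f : F k →ₐ[k] F k) (v : Gen → F k) (ft : f tt = tt) :
    M →* Matrix (Fin 2) (Fin 2) (F k) :=
  MonoidHom.noncommCoprod (FreeMonoid.lift fun g => !![f (X g), v g; 0, X g])
    (powersHom _ (!![tt, 0; 0, tt] : Matrix (Fin 2) (Fin 2) (F k)))
    fun w e => by
      refine Commute.pow_right ?_ _
      show _ = _
      ext i j
      fin_cases i <;> fin_cases j <;>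
        simp [Matrix.mul_apply, Fin.sum_univ_two, (tt_comm _).eq]

noncomputable def J : F k →ₐ[k] F k := signJ degHom

lemma degOf_of (g : Gen) : degOf degHom ((FreeMonoid.of g, 1) : M) = g.dg := by
  simp [degOf, degHom]

lemma degOf_t (e : Multiplicative ℕ) : degOf degHom ((1, e) : M) = 0 := by
  simp [degOf, degHom]

lemma J_X (g : Gen) : J (X g : F k) = (-1 : k) ^ g.dg.natAbs • X g := by
  rw [J, X, signJ_single, degOf_of]

lemma J_tt : J (tt : F k) = tt := by
  rw [J, tt, signJ_single, degOf_t]; simp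

noncomputable def dMat : F k →ₐ[k] Matrix (Fin 2) (Fin 2) (F k) :=
  lift k _ M (triHom J dX J_tt)

noncomputable def DMat : F k →ₐ[k] Matrix (Fin 2) (Fin 2) (F k) :=
  lift k _ M (triHom (AlgHom.id k _) DX rfl)

noncomputable def d : F k →ₗ[k] F k := triDer dMat
noncomputable def D : F k →ₗ[k] F k := triDer DMat

lemma mat_gen {f : F k →ₐ[k] F k} {v : Gen → F k} {ft : f tt = tt} :
    (∀ g, lift k _ M (triHom f v ft) (X g) = !![f (X g), v g; 0, X g]) ∧
      lift k _ M (triHom f v ft) tt = !![tt, 0; 0, tt] := by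
  constructor
  · intro g; simp [X, triHom]
  · simp [tt, triHom]

lemma mat_diag {f : F k →ₐ[k] F k} {v : Gen → F k} {ft : f tt = tt} (a : F k) :
    let φ := lift k _ M (triHom f v ft)
    φ a 0 0 = f a ∧ φ a 1 1 = AlgHom.id k (F k) a ∧ φ a 1 0 = 0 := by
  refine tri_diag adjoin_top _ f (AlgHom.id k (F k)) ?_ a
  rintro b (rfl | ⟨g, rfl⟩)
  · simp [mat_gen.2, ft]
  · simp [mat_gen.1]

lemma d_X (g : Gen) : d (X g : F k) = dX g := by simp [d, triDer_apply, dMat, mat_gen.1]
lemma d_tt : d (tt : F k) = 0 := by simp [d, triDer_apply, dMat, mat_gen.2]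
lemma D_X (g : Gen) : D (X g : F k) = DX g := by simp [D, triDer_apply, DMat, (mat_gen (f := AlgHom.id k (F k)) (v := DX) (ft := rfl)).1]
lemma D_tt : D (tt : F k) = 0 := by simp [D, triDer_apply, DMat, (mat_gen (f := AlgHom.id k (F k)) (v := DX) (ft := rfl)).2]

lemma d_mul (a b : F k) : d (a * b) = J a * d b + d a * b := triDer_mul mat_diag a b

lemma D_mul (a b : F k) : D (a * b) = a * D b + D a * b := triDer_mul mat_diag a b

/-- `d` anticommutes with the sign. -/
lemma J_d (a : F k) : J (d a) + d (J a) = 0 := by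
  have key := eq_zero_of_leibniz (k := k) adjoin_top (J.toLinearMap ∘ₗ d + d ∘ₗ J.toLinearMap)
    (J.comp J) J (fun a b => ?_) ?_ a
  · simpa using key
  · simp only [LinearMap.add_apply, LinearMap.comp_apply, AlgHom.toLinearMap_apply,
      AlgHom.comp_apply, map_mul, d_mul, map_add]
    noncomm_ring
  · rintro b (rfl | ⟨g, rfl⟩)
    · simp [J_tt, d_tt]
    · rcases g with i | i | i | i | i <;> fin_cases i <;>
        simp [J_X, d_X, dX, Gen.dg, J_tt] <;> noncomm_ring

lemma d_d (a : F k) : d (d a) = 0 := by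
  have key := eq_zero_of_leibniz (k := k) adjoin_top (d ∘ₗ d)
    (J.comp J) (AlgHom.id k _) (fun a b => ?_) ?_ a
  · simpa using key
  · simp only [LinearMap.comp_apply, AlgHom.comp_apply, AlgHom.id_apply, d_mul, map_add]
    have h := J_d (k := k) a
    rw [show d (J a) = - J (d a) from eq_neg_of_add_eq_zero_right h]
    noncomm_ring
  · rintro b (rfl | ⟨g, rfl⟩)
    · simp [d_tt]
    · rcases g with i | i | i | i | i <;> fin_cases i <;>
        simp [d_X, d_mul, d_tt, dX, Gen.dg, J_X, J_tt] <;> noncomm_ring <;>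
        simp [(tt_comm _).eq, mul_assoc]

lemma J_D (a : F k) : J (D a) = D (J a) := by
  refine eq_of_leibniz (k := k) adjoin_top (δ := J.toLinearMap ∘ₗ D) (ε := D ∘ₗ J.toLinearMap)
    J J (fun a b => ?_) (fun a b => ?_) ?_ a
  · simp [D_mul]
  · simp [D_mul]
  · rintro b (rfl | ⟨g, rfl⟩)
    · simp [J_tt, D_tt]
    · rcases g with i | i | i | i | i <;> fin_cases i <;>
        simp [J_X, D_X, DX, Gen.dg, J_tt]

lemma d_D (a : F k) : d (D a) = D (d a) := by
  have key := eq_zero_of_leibniz (k := k) adjoin_top (d ∘ₗ D - D ∘ₗ d) J (AlgHom.id k _)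
    (fun a b => ?_) ?_ a
  · simpa [sub_eq_zero] using key
  · simp only [LinearMap.sub_apply, LinearMap.comp_apply, AlgHom.id_apply, D_mul, d_mul, map_add,
      J_D]
    noncomm_ring
  · rintro b (rfl | ⟨g, rfl⟩)
    · simp [d_tt, D_tt]
    · rcases g with i | i | i | i | i <;> fin_cases i <;>
        simp [d_X, D_X, d_tt, D_tt, d_mul, D_mul, dX, DX, J_tt]

end P195.Algebra
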