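import Vale.Agent.P195.Algebra.Leibniz

/-!
P195, algebra seat: homogeneity of products, of `Φ`, of the differentials and signs.
-/

namespace P195.Algebra

variable (k : Type) [Field k]

/-- Degree `n` in `F`. -/
def HomF (n : ℤ) (a : F k) : Prop := filtF k n a = a
/-- Degree `n` in `Λ`. -/
def HomL (n : ℤ) (x : Lam k) : Prop := filtL k n x = x

theorem filtF_filtF (m n : ℤ) (a : F k) :
    filtF k m (filtF k n a) = if m = n then filtF k n a else 0 := part_part degHom m n a

theorem HomF.mul {m n : ℤ} {a b : F k} (ha : HomF k m a) (hb : HomF k n b) :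
    HomF k (m + n) (a * b) := part_mul_mem degHom ha hb

theorem HomF.of_eq {m n : ℤ} {a : F k} (h : HomF k m a) (e : m = n) : HomF k n a := e ▸ h

theorem HomF.add {n : ℤ} {a b : F k} (ha : HomF k n a) (hb : HomF k n b) : HomF k n (a + b) := by
  simp only [HomF, map_add] at ha hb ⊢; rw [ha, hb]

theorem HomF.sub {n : ℤ} {a b : F k} (ha : HomF k n a) (hb : HomF k n b) : HomF k n (a - b) := by
  simp only [HomF, map_sub] at ha hb ⊢; rw [ha, hb]

theorem HomF.neg {n : ℤ} {a : F k} (ha : HomF k n a) : HomF k n (-a) := by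
  simp only [HomF, map_neg] at ha ⊢; rw [ha]

theorem HomF.zero (n : ℤ) : HomF k n (0 : F k) := map_zero _

theorem HomF.smul {n : ℤ} {a : F k} (c : k) (ha : HomF k n a) : HomF k n (c • a) := by
  simp only [HomF, map_smul] at ha ⊢; rw [ha]

theorem HomF.sg {n : ℤ} {a : F k} (ha : HomF k n a) : Algebra.sg k a = (-1 : k) ^ n.natAbs • a :=
  signJ_apply degHom n a ha

theorem HomF.sg_mem {n : ℤ} {a : F k} (ha : HomF k n a) : HomF k n (Algebra.sg k a) := by
  rw [ha.sg]; exact ha.smul k _

theorem homF_one : HomF k 0 (1 : F k) := part_one degHom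

theorem homF_gen (g : Gen) : HomF k g.deg (gen k g) := by
  show part degHom _ _ = _
  rw [gen, Algebra.X, part_single, if_pos]
  rw [degOf_of]; cases g <;> rfl

theorem homF_tF : HomF k 0 (tF k) := by
  show part degHom _ _ = _
  rw [tF, tt, part_single, if_pos]
  rw [degOf_t]

/-- A map on `F` respecting products and generators respects the degree. -/
theorem F.hom_induction {P : ℤ → F k → Prop} (zero : ∀ n, P n 0)
    (add : ∀ n a b, P n a → P n b → P n (a + b)) (smul : ∀ (n : ℤ) (c : k) a, P n a → P n (c • a))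
    (one : P 0 1) (t : P 0 (tF k)) (gen : ∀ g : Gen, P g.deg (Algebra.gen k g))
    (mul : ∀ m n a b, HomF k m a → HomF k n b → P m a → P n b → P (m + n) (a * b))
    (n : ℤ) (a : F k) (ha : HomF k n a) : P n a := by
  suffices h : ∀ a, P n (filtF k n a) by rw [← ha]; exact h a
  intro a
  induction a using MonoidAlgebra.induction_linear with
  | zero => rw [map_zero]; exact zero n
  | add u v hu hv => rw [map_add]; exact add n _ _ hu hv
  | single m r =>
    show P n (part degHom n _)
    rw [part_single]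
    split_ifs with e
    swap; · exact zero n
    have key : ∀ w : FreeMonoid Gen, HomF k (wdeg (FreeMonoid.toList w))
          (MonoidAlgebra.single ((w, 1) : M) (1 : k)) ∧
        P (wdeg (FreeMonoid.toList w)) (MonoidAlgebra.single ((w, 1) : M) (1 : k)) := by
      intro w
      induction w using FreeMonoid.inductionOn' with
      | one => exact ⟨homF_one k, one⟩
      | of_mul g w ih =>
        have h2 : (MonoidAlgebra.single ((FreeMonoid.of g * w, 1) : M) (1 : k))
            = Algebra.gen k g * MonoidAlgebra.single ((w, 1) : M) 1 := by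
          simp [Algebra.gen, Algebra.X, MonoidAlgebra.single_mul_single]
        have h3 : (wdeg (FreeMonoid.toList (FreeMonoid.of g * w)) : ℤ)
            = (g.deg : ℤ) + wdeg (FreeMonoid.toList w) := by simp [wdeg]
        rw [h2, h3]
        exact ⟨(homF_gen k g).mul k ih.1, mul _ _ _ _ (homF_gen k g) ih.1 (gen g) ih.2⟩
    have keyt : ∀ j : ℕ, HomF k 0 (tF k ^ j) ∧ P 0 (tF k ^ j) := by
      intro j
      induction j with
      | zero => simpa using ⟨homF_one k, one⟩
      | succ j ih =>
        rw [pow_succ]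
        have h1 := ih.1.mul k (homF_tF k)
        have h2 := mul _ _ _ _ ih.1 (homF_tF k) ih.2 t
        simp only [add_zero] at h1 h2
        exact ⟨h1, h2⟩
    obtain ⟨w, j⟩ := m
    have e2 : MonoidAlgebra.single ((w, j) : M) r
        = r • (MonoidAlgebra.single ((w, 1) : M) 1 * tF k ^ (Multiplicative.toAdd j)) := by
      simp only [tF, tt, MonoidAlgebra.single_pow, MonoidAlgebra.single_mul_single,
        MonoidAlgebra.smul_single]
      simp [← ofAdd_nsmul]
    rw [e2]
    refine smul n r _ ?_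
    have h := mul _ _ _ _ (key w).1 (keyt _).1 (key w).2 (keyt (Multiplicative.toAdd j)).2
    rw [degOf_eq] at e
    simpa [← e, mdeg] using h

theorem dF_hom {n : ℤ} {a : F k} (ha : HomF k n a) : HomF k (n - 1) (dF k a) := by
  refine F.hom_induction k (P := fun n a => HomF k (n - 1) (dF k a)) ?_ ?_ ?_ ?_ ?_ ?_ ?_ n a ha
  · intro n; rw [map_zero]; exact HomF.zero k _
  · intro n a b ha hb; rw [map_add]; exact ha.add k hb
  · intro n c a ha; rw [map_smul]; exact ha.smul k c
  · rw [dF_one]; exact HomF.zero k _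
  · rw [d_tt]; exact HomF.zero k _
  · intro g
    rw [d_X]
    have hX : ∀ g : Gen, HomF k g.deg (Algebra.X g : F k) := homF_gen k
    have hx := fun i => hX (.x i)
    have hp := fun i => hX (.p i)
    have hr := fun i => hX (.r i)
    have hq := fun i => hX (.q i)
    have ht : HomF k 0 (tt : F k) := homF_tF k
    rcases g with i | i | i | i | i <;> simp only [dX, Gen.deg]
    · exact HomF.zero k _
    · exact HomF.zero k _
    · refine (((((hx 0).mul k (hp i)).mul k (hx 1)).sub k
        (((hx 1).mul k (hp i)).mul k (hx 0))).add k ?_).of_eq k (by simp [Gen.deg])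
      split_ifs
      · exact (ht.mul k (hx 1)).of_eq k (by simp [Gen.deg])
      · exact ((ht.mul k (hx 0)).of_eq k (by simp [Gen.deg])).neg k
    · refine (((((hp 0).mul k (hx i)).mul k (hp 1)).sub k
        (((hp 1).mul k (hx i)).mul k (hp 0))).add k ?_).of_eq k (by simp [Gen.deg])
      split_ifs
      · exact ((ht.mul k (hp 1)).of_eq k (by simp [Gen.deg])).neg k
      · exact (ht.mul k (hp 0)).of_eq k (by simp [Gen.deg])
    · split_ifs
      · exact ((((hp 0).mul k (hr 1)).sub k ((hp 1).mul k (hr 0))).sub k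
          (((hq 0).mul k (hx 1)).of_eq k (by simp [Gen.deg])) |>.add k
          (((hq 1).mul k (hx 0)).of_eq k (by simp [Gen.deg]))).of_eq k (by simp [Gen.deg])
      · exact ((((hr 0).mul k (hp 1)).sub k ((hr 1).mul k (hp 0))).sub k
          (((hx 0).mul k (hq 1)).of_eq k (by simp [Gen.deg])) |>.add k
          (((hx 1).mul k (hq 0)).of_eq k (by simp [Gen.deg]))).of_eq k (by simp [Gen.deg])
  · intro m n a b ha hb ha' hb'
    rw [d_mul]
    exact (((ha.sg_mem k).mul k hb').of_eq k (by ring)).add k ((ha'.mul k hb).of_eq k (by ring))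

theorem DF_hom {n : ℤ} {a : F k} (ha : HomF k n a) : HomF k (n - 2) (DF k a) := by
  refine F.hom_induction k (P := fun n a => HomF k (n - 2) (DF k a)) ?_ ?_ ?_ ?_ ?_ ?_ ?_ n a ha
  · intro n; rw [map_zero]; exact HomF.zero k _
  · intro n a b ha hb; rw [map_add]; exact ha.add k hb
  · intro n c a ha; rw [map_smul]; exact ha.smul k c
  · rw [DF_one]; exact HomF.zero k _
  · rw [D_tt]; exact HomF.zero k _
  · intro g
    rw [D_X]
    rcases g with i | i | i | i | i <;> simp only [DX, Gen.deg] <;> try exact HomF.zero k _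
    have h2 := (homF_tF k).mul k (homF_tF k)
    split_ifs
    · exact h2.neg k
    · exact h2
  · intro m n a b ha hb ha' hb'
    rw [D_mul]
    exact ((ha.mul k hb').of_eq k (by ring)).add k ((ha'.mul k hb).of_eq k (by ring))

theorem homL_iff {n : ℤ} {x : Lam k} :
    HomL k n x ↔ HomF k n (Lam.re k x) ∧ HomF k (n - 1) (Lam.im k x) := by
  constructor
  · intro h
    exact ⟨by simpa [filtL, HomF] using congrArg (Lam.re k) h,
      by simpa [filtL, HomF] using congrArg (Lam.im k) h⟩
  · rintro ⟨h1, h2⟩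
    exact Lam.ext (by simpa [filtL, HomF] using h1) (by simpa [filtL, HomF] using h2)

theorem HomL.mul {m n : ℤ} {x y : Lam k} (hx : HomL k m x) (hy : HomL k n y) :
    HomL k (m + n) (x * y) := by
  rw [homL_iff] at hx hy ⊢
  rw [Lam.re_mul, Lam.im_mul]
  exact ⟨hx.1.mul k hy.1, ((hx.1.mul k hy.2).of_eq k (by ring)).add k
    ((hx.2.mul k (hy.1.sg_mem k)).of_eq k (by ring))⟩

theorem HomL.of_eq {m n : ℤ} {x : Lam k} (h : HomL k m x) (e : m = n) : HomL k n x := e ▸ h

theorem HomL.add {n : ℤ} {a b : Lam k} (ha : HomL k n a) (hb : HomL k n b) :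
    HomL k n (a + b) := by
  simp only [HomL, map_add] at ha hb ⊢; rw [ha, hb]

theorem HomL.zero (n : ℤ) : HomL k n (0 : Lam k) := map_zero _

theorem HomL.neg {n : ℤ} {a : Lam k} (ha : HomL k n a) : HomL k n (-a) := by
  simp only [HomL, map_neg] at ha ⊢; rw [ha]

theorem HomL.smul {n : ℤ} {a : Lam k} (c : k) (ha : HomL k n a) : HomL k n (c • a) := by
  simp only [HomL, map_smul] at ha ⊢; rw [ha]

theorem HomL.sum {ι : Type} (s : Finset ι) {n : ℤ} (f : ι → Lam k)
    (h : ∀ i ∈ s, HomL k n (f i)) : HomL k n (∑ i ∈ s, f i) := by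
  simp only [HomL, map_sum]
  exact Finset.sum_congr rfl h

theorem homL_of {n : ℤ} {a : F k} (ha : HomF k n a) : HomL k n (Lam.of k a) :=
  (homL_iff k).2 ⟨by simpa using ha, by simpa using HomF.zero k (n - 1)⟩

theorem homL_one : HomL k 0 (1 : Lam k) :=
  (homL_iff k).2 ⟨by simpa using homF_one k, by simpa using HomF.zero k (0 - 1)⟩

theorem homL_u : HomL k 1 (Lam.u k) :=
  (homL_iff k).2 ⟨by simpa [Lam.u] using HomF.zero k 1, by simpa [Lam.u] using homF_one k⟩

theorem HomL.sgL {n : ℤ} {x : Lam k} (hx : HomL k n x) :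
    Algebra.sgL k x = (-1 : k) ^ n.natAbs • x := by
  obtain ⟨h1, h2⟩ := (homL_iff k).1 hx
  refine Lam.ext (by simp [h1.sg]) ?_
  simp only [sgL_im, h2.sg, map_smul, ← neg_smul]
  congr 1
  rw [show (-((-1 : k) ^ (n - 1).natAbs)) = (-1) ^ ((n - 1).natAbs + 1) by rw [pow_succ]; ring]
  refine neg_one_pow_congr ?_
  rw [Nat.even_add_one, Int.natAbs_even, Int.natAbs_even, Int.even_sub_one, not_not]

theorem dL_hom {n : ℤ} {x : Lam k} (hx : HomL k n x) : HomL k (n - 1) (dL k x) := by
  obtain ⟨h1, h2⟩ := (homL_iff k).1 hx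
  rw [homL_iff, dL_re, dL_im]
  exact ⟨dF_hom k h1, (((DF_hom k h1).sg_mem k).of_eq k (by ring)).add k (dF_hom k h2)⟩

end P195.Algebra
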