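import Vale.Agent.P195.Algebra.Grade

/-!
P195, algebra seat: the degree on `T∞`.
-/

namespace P195.Algebra

variable (k : Type) [Field k]

attribute [local irreducible] HomL HomF

/-- Entries of degree `n + deg c - deg c'`. -/
def HomM (n : ℤ) (A : Matrix LC LC (Lam k)) : Prop :=
  ∀ c c', HomL k (n + c.deg - c'.deg) (A c c')

theorem HomM.mul {m n : ℤ} {A B : Matrix LC LC (Lam k)} (hA : HomM k m A) (hB : HomM k n B) :
    HomM k (m + n) (A * B) := fun c c' => by
  rw [Matrix.mul_apply]
  exact HomL.sum k _ _ fun j _ => ((hA c j).mul k (hB j c')).of_eq k (by ring)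

theorem homM_one : HomM k 0 (1 : Matrix LC LC (Lam k)) := fun c c' => by
  rw [Matrix.one_apply]
  split_ifs with h
  · subst h; exact (homL_one k).of_eq k (by ring)
  · exact HomL.zero k _

theorem phiF_hom {n : ℤ} {a : F k} (ha : HomF k n a) : HomM k n (phiF k a) := by
  refine F.hom_induction k (P := fun n a => HomM k n (phiF k a)) ?_ ?_ ?_ ?_ ?_ ?_ ?_ n a ha
  · intro n c c'; rw [map_zero]; exact HomL.zero k _
  · intro n a b ha hb c c'; rw [map_add]; exact (ha c c').add k (hb c c')
  · intro n r a ha c c'; rw [map_smul]; exact (ha c c').smul k r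
  · rw [map_one]; exact homM_one k
  · intro c c'
    rw [phiF_tF, Matrix.scalar_apply, Matrix.diagonal_apply]
    split_ifs with h
    · subst h; exact (homL_of k (homF_tF k)).of_eq k (by ring)
    · exact HomL.zero k _
  · intro g c c'
    rw [phiF_gen]
    have hG := fun g => homL_of k (homF_gen k g)
    have hx := fun i => hG (.x i)
    have hp := fun i => hG (.p i)
    have hr := fun i => hG (.r i)
    have hq := fun i => hG (.q i)
    have hz := fun i => hG (.z i)
    have ht := homL_of k (homF_tF k)
    have hu : HomL k 1 (Lam.mk k 0 (tF k * tF k)) :=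
      (homL_iff k).2 ⟨by simpa using HomF.zero k 1,
        by simpa using (homF_tF k).mul k (homF_tF k)⟩
    rcases g with i | i | i | i | i <;> rcases c with _ | j | _ <;> rcases c' with _ | j' | _ <;>
      simp only [phiGen] <;> try with_reducible exact HomL.zero k _
    case x.E.F =>
      split_ifs
      · exact (homL_one k).of_eq k (by simp [Gen.deg, LC.deg])
      · exact HomL.zero k _
    case p.F.E =>
      have e1 : HomL k (((Gen.p i).deg : ℤ) + (LC.F j).deg - LC.E.deg)
          (Lam.of k (gP k i * gX k j)) := by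
        rw [map_mul]; exact ((hp i).mul k (hx j)).of_eq k (by simp [Gen.deg, LC.deg])
      have e2 : HomL k (((Gen.p i).deg : ℤ) + (LC.F j).deg - LC.E.deg) (Lam.of k (tF k)) :=
        ht.of_eq k (by simp [Gen.deg, LC.deg])
      rw [sub_eq_add_neg (Lam.of k _)]
      refine e1.add k (HomL.neg k ?_)
      split_ifs
      · exact e2
      · exact HomL.zero k _
    case p.H.E => exact ((hr i).neg k).of_eq k (by simp [Gen.deg, LC.deg])
    case r.E.H => exact ((hp i).neg k).of_eq k (by simp [Gen.deg, LC.deg])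
    case q.F.E =>
      rw [map_mul]
      refine HomL.add k (((hq j).mul k (hx i)).of_eq k (by simp [Gen.deg, LC.deg])) ?_
      split_ifs
      · exact hu.of_eq k (by simp [Gen.deg, LC.deg])
      · exact (hu.neg k).of_eq k (by simp [Gen.deg, LC.deg])
      · exact HomL.zero k _
    case q.H.E =>
      rw [map_mul]
      exact ((hz 1).mul k (hx i)).of_eq k (by simp [Gen.deg, LC.deg])
    case z.E.E =>
      split_ifs
      · exact (hz 0).of_eq k (by simp [Gen.deg, LC.deg])
      · exact HomL.zero k _
    case z.F.H =>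
      split_ifs
      · exact ((hq j).neg k).of_eq k (by simp [Gen.deg, LC.deg])
      · exact HomL.zero k _
    case z.H.H =>
      split_ifs
      · exact ((hz 1).neg k).of_eq k (by simp [Gen.deg, LC.deg])
      · exact HomL.zero k _
  · intro m n a b _ _ ha hb; rw [map_mul]; exact ha.mul k hb

theorem phiL_hom {n : ℤ} {x : Lam k} (hx : HomL k n x) : HomM k n (phiL k x) := by
  obtain ⟨h1, h2⟩ := (homL_iff k).1 hx
  have hU : HomM k 1 (phiU k) := fun c c' => by
    rw [phiU, Matrix.diagonal_apply]
    split_ifs with h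
    · subst h; exact ((homL_u k).smul k _).of_eq k (by ring)
    · exact HomL.zero k _
  intro c c'
  rw [phiL_apply, phiFun, Matrix.add_apply]
  exact (phiF_hom k h1 c c').add k (((phiF_hom k h2).mul k hU c c').of_eq k (by ring))

theorem homL_Nm (c c' : LC) : HomL k ((c.deg : ℤ) - c'.deg - 1) (Nm k c c') := by
  cases c <;> cases c' <;> simp only [Nm] <;> try with_reducible exact HomL.zero k _
  split_ifs
  · exact (homL_of k (homF_gen k _)).of_eq k (by simp [Gen.deg, LC.deg])
  · exact ((homL_of k (homF_gen k _)).neg k).of_eq k (by simp [Gen.deg, LC.deg])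

/-- Degree `n` in `T∞`. -/
def HomT (n : ℤ) (x : Tinf k) : Prop := filtT k n x = x

theorem homT_iff {n : ℤ} {x : Tinf k} : HomT k n x ↔
    HomL k n (Tinf.lam k x) ∧ ∀ c, HomL k (n - 4 - c.deg) (Tinf.cell k c x) := by
  constructor
  · intro h
    exact ⟨by simpa [filtT, HomL] using congrArg (Tinf.lam k) h,
      fun c => by simpa [filtT, HomL] using congrArg (Tinf.cell k c) h⟩
  · rintro ⟨h1, h2⟩
    refine Tinf.ext (by simpa [filtT, HomL] using h1) (funext fun c => ?_)
    simpa [filtT, HomL] using h2 c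

theorem filtT_filtT (m n : ℤ) (x : Tinf k) :
    filtT k m (filtT k n x) = if m = n then filtT k n x else 0 := by
  split_ifs with h
  · subst h
    refine Tinf.ext ?_ (funext fun c => ?_) <;>
      simp [filtT, filtL, filtF_filtF]
  · refine Tinf.ext ?_ (funext fun c => ?_)
    · simp [filtT, filtL, filtF_filtF, h]
      exact Lam.ext (by simp) (by simp)
    · simp [filtT, filtL, filtF_filtF, h]
      exact Lam.ext (by simp) (by simp)

theorem homT_one : HomT k 0 (1 : Tinf k) :=
  (homT_iff k).2 ⟨by simpa using homL_one k, fun c => by simpa using HomL.zero k _⟩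

theorem HomT.mul {m n : ℤ} {x y : Tinf k} (hx : HomT k m x) (hy : HomT k n y) :
    HomT k (m + n) (x * y) := by
  rw [homT_iff] at hx hy ⊢
  refine ⟨by simpa using hx.1.mul k hy.1, fun c => ?_⟩
  rw [← Tinf.cells_apply, Tinf.cells_mul, Pi.add_apply, Pi.smul_apply, smul_eq_mul]
  refine ((hx.1.mul k (hy.2 c)).of_eq k (by ring)).add k ?_
  simp only [Matrix.vecMul, dotProduct, Tinf.cells_apply]
  exact HomL.sum k _ _ fun j _ => ((hx.2 j).mul k (phiL_hom k hy.1 j c)).of_eq k (by ring)

theorem dT_hom {n : ℤ} {x : Tinf k} (hx : HomT k n x) : HomT k (n - 1) (dT k x) := by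
  rw [homT_iff] at hx ⊢
  refine ⟨by simpa using dL_hom k hx.1, fun c => ?_⟩
  rw [← Tinf.cells_apply, dT_cells, Pi.add_apply, dRow_apply]
  refine ((dL_hom k (hx.2 c)).of_eq k (by ring)).add k ?_
  simp only [Matrix.vecMul, dotProduct, sgRow_apply, Tinf.cells_apply]
  refine HomL.sum k _ _ fun j _ => ?_
  rw [(hx.2 j).sgL]
  exact (((hx.2 j).smul k _).mul k (homL_Nm k j c)).of_eq k (by ring)

theorem HomT.sgT {n : ℤ} {x : Tinf k} (hx : HomT k n x) :
    Algebra.sgT k x = (-1 : k) ^ n.natAbs • x := by
  rw [homT_iff] at hx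
  refine Tinf.ext (by simp [hx.1.sgL]) (funext fun c => ?_)
  rw [map_smul, Pi.smul_apply, sgT_cells, Jm, Matrix.vecMul_diagonal, sgRow_apply,
    Tinf.cells_apply, (hx.2 c).sgL, mul_smul_comm, mul_one, smul_smul]
  congr 1
  rw [LC.sgn, ← pow_add]
  refine neg_one_pow_congr ?_
  rw [Nat.even_add, Int.natAbs_even, Int.natAbs_even, Int.even_sub, Int.even_sub, Int.even_coe_nat]
  have : Even (4 : ℤ) := by decide
  tauto

end P195.Algebra
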