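import Vale.Agent.P195.Algebra.Diff

/-!
P195, algebra seat: the key identity `d(Φ x) + sg(Φ x) N = N Φ x + J Φ(d x)` on composable rows.
-/

namespace P195.Algebra

variable (k : Type) [Field k]

/-- The defect of the key identity. -/
noncomputable def err (x : Lam k) : Matrix LC LC (Lam k) :=
  dMx k (phiL k x) + sgMx k (phiL k x) * Nm k - Nm k * phiL k x - Jm k * phiL k (dL k x)

theorem err_add (x y : Lam k) : err k (x + y) = err k x + err k y := by
  simp only [err, map_add, add_mul, mul_add]; abel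

theorem err_smul (r : k) (x : Lam k) : err k (r • x) = r • err k x := by
  simp only [err, map_smul, smul_mul_assoc, mul_smul_comm, smul_sub, smul_add]

theorem err_mul (x y : Lam k) :
    err k (x * y) = err k x * phiL k y + sgMx k (phiL k x) * err k y := by
  have hJ := sgMx_phiL k x
  simp only [err, map_mul, map_add, dMx_mul, dL_mul, mul_add]
  rw [show Jm k * (phiL k (sgL k x) * phiL k (dL k y))
      = sgMx k (phiL k x) * Jm k * phiL k (dL k y) by rw [hJ, mul_assoc]]
  noncomm_ring

theorem err_one : err k (1 : Lam k) = 0 := by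
  have h1 : dL k (1 : Lam k) = 0 := Lam.ext (by simp) (by simp)
  simp [err, dMx_one, h1]

theorem Lam.of_t : Lam.re k (Lam.of k (tF k)) = tF k := rfl

theorem dL_of_tF : dL k (Lam.of k (tF k)) = 0 :=
  Lam.ext (by simp [d_tt]) (by simp [d_tt, D_tt])

theorem phiL_of (a : F k) : phiL k (Lam.of k a) = phiF k a := by
  simp [phiL_apply, phiFun]

theorem phiL_u : phiL k (Lam.u k) = phiU k := by
  simp [phiL_apply, phiFun, Lam.u]

theorem err_t : err k (Lam.of k (tF k)) = 0 := by
  have h2 : dMx k (Matrix.scalar LC (Lam.of k (tF k))) = 0 := by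
    ext c c' : 1
    simp [Matrix.diagonal_apply]
    split_ifs <;> simp [dL_of_tF]
  have h3 : sgMx k (Matrix.scalar LC (Lam.of k (tF k))) = Matrix.scalar LC (Lam.of k (tF k)) := by
    ext c c' : 1
    simp [Matrix.diagonal_apply]
    split_ifs <;> simp
  rw [err, phiL_of, phiF_tF, h2, h3, dL_of_tF, map_zero, mul_zero, sub_zero, zero_add,
    Matrix.scalar_comm (Lam.of k (tF k)) (Lam.tF_comm k) (Nm k), sub_self]

theorem dMx_phiU : dMx k (phiU k) = 0 := by
  ext c c' : 1
  simp [phiU, Matrix.diagonal_apply]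
  split_ifs <;> simp

theorem err_u : err k (Lam.u k) = 0 := by
  rw [err, phiL_u, dMx_phiU, dL_u, map_zero, mul_zero, sub_zero, zero_add, sgMx_phiU]
  ext c c' : 1
  simp only [Matrix.sub_apply, neg_mul, Matrix.neg_apply, phiU, Matrix.diagonal_mul,
    Matrix.mul_diagonal, Matrix.zero_apply]
  cases c <;> cases c' <;> simp [Nm, LC.sgn, LC.deg] <;> split_ifs <;>
    refine Lam.ext ?_ ?_ <;> simp [Lam.u, gX, Gen.deg]

/-- Rows starting at the vertex `a`. -/
def RowAt (a : Fin 2) (l : LC → Lam k) : Prop := ∀ c, LC.rv c ≠ a → l c = 0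

theorem RowAt.add {a : Fin 2} {l m : LC → Lam k} (hl : RowAt k a l) (hm : RowAt k a m) :
    RowAt k a (l + m) := fun c hc => by simp [hl c hc, hm c hc]

theorem phiGen_zero (g : Gen) (c c' : LC) (hc : LC.rv c = g.tgt) (hc' : LC.rv c' ≠ g.src) :
    phiGen k g c c' = 0 := by
  have h := phiGen_sup k g c c' hc
  simpa [hc'] using h

theorem RowAt.gen {g : Gen} {l : LC → Lam k} (hl : RowAt k g.tgt l) :
    RowAt k g.src (Matrix.vecMul l (sgMx k (phiGen k g))) := fun c' hc' => by
  simp only [Matrix.vecMul, dotProduct, sgMx_apply]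
  refine Finset.sum_eq_zero fun c _ => ?_
  by_cases hc : LC.rv c = g.tgt
  · simp [phiGen_zero k g c c' hc hc']
  · simp [hl c hc]

theorem sum_LC {A : Type} [AddCommMonoid A] (f : LC → A) :
    ∑ c, f c = f .E + f (.F 0) + f (.F 1) + f .H := by
  have h : (Finset.univ : Finset LC) = {.E, .F 0, .F 1, .H} := by decide
  rw [h, Finset.sum_insert (by simp), Finset.sum_insert (by simp), Finset.sum_insert (by simp),
    Finset.sum_singleton]
  abel

theorem dL_of_gen (g : Gen) : dL k (Lam.of k (gen k g))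
      = Lam.of k (dX g) + Lam.of k (sg k (DX g)) * Lam.u k := by
  refine Lam.ext ?_ ?_ <;> simp [d_X, D_X, Lam.u]

theorem phiL_dL_gen (g : Gen) : phiL k (dL k (Lam.of k (gen k g)))
      = phiF k (dX g) + phiF k (sg k (DX g)) * phiU k := by
  rw [dL_of_gen, map_add, map_mul, phiL_of, phiL_of, phiL_u]

theorem err_x (i : Fin 2) (c c' : LC) (hc : LC.rv c = 1) :
    err k (Lam.of k (gen k (.x i))) c c' = 0 := by
  simp only [err, phiL_dL_gen, phiL_of, phiF_gen, Matrix.sub_apply, Matrix.add_apply, dMx_apply,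
    Matrix.mul_apply, sgMx_apply, sum_LC]
  cases c <;> simp [LC.rv] at hc
  cases c' <;> simp [phiGen, Nm, dX, DX]
  split_ifs <;> simp [show dL k (1 : Lam k) = 0 from Lam.ext (by simp) (by simp)]

theorem err_p (i : Fin 2) (c c' : LC) (hc : LC.rv c = 0) :
    err k (Lam.of k (gen k (.p i))) c c' = 0 := by
  simp only [err, phiL_dL_gen, phiL_of, phiF_gen, Matrix.sub_apply, Matrix.add_apply, dMx_apply,
    Matrix.mul_apply, sgMx_apply, sum_LC]
  rcases c with _ | j | _ <;> simp [LC.rv] at hc <;> rcases c' with _ | j' | _ <;>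
    simp [phiGen, Nm, dX, DX] <;> refine Lam.ext ?_ ?_ <;> fin_cases i <;> try fin_cases j
  all_goals simp [gX, gP, gR, d_X, D_X, d_mul, D_mul, d_tt, D_tt, dX, DX, Gen.deg]
  all_goals simp only [gen, tF]
  all_goals noncomm_ring
  all_goals simp [(tt_comm _).eq, mul_assoc]

theorem err_r (i : Fin 2) (c c' : LC) (hc : LC.rv c = 1) :
    err k (Lam.of k (gen k (.r i))) c c' = 0 := by
  simp only [err, phiL_dL_gen, phiL_of, phiF_gen, Matrix.sub_apply, Matrix.add_apply, dMx_apply,
    Jm, Matrix.diagonal_mul, Matrix.mul_apply (M := sgMx k _), Matrix.mul_apply (M := Nm k),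
    sgMx_apply, sum_LC]
  rcases c with _ | j | _ <;> simp [LC.rv] at hc <;> rcases c' with _ | j' | _ <;>
    fin_cases i <;> (try fin_cases j) <;> (try fin_cases j') <;>
    simp [dX, DX, phiF_tF, phiF_gen, Matrix.mul_apply, sum_LC, Matrix.diagonal_apply, phiU,
      phiGen, Nm, LC.sgn, LC.deg]
  all_goals refine Lam.ext ?_ ?_
  all_goals simp [gX, gP, gR, gQ, gZ, Lam.u, d_X, D_X, d_mul, D_mul, d_tt, D_tt, dX, DX, Gen.deg]
  all_goals simp only [gen, tF]
  all_goals noncomm_ring
  all_goals simp [(tt_comm _).eq, mul_assoc]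

set_option maxHeartbeats 2000000 in
theorem err_q0 (c c' : LC) (hc : LC.rv c = 0) :
    err k (Lam.of k (gen k (.q 0))) c c' = 0 := by
  simp only [err, phiL_dL_gen, phiL_of, phiF_gen, Matrix.sub_apply, Matrix.add_apply, dMx_apply,
    Jm, Matrix.diagonal_mul, Matrix.mul_apply (M := sgMx k _), Matrix.mul_apply (M := Nm k),
    sgMx_apply, sum_LC]
  rcases c with _ | j | _ <;> simp [LC.rv] at hc <;> rcases c' with _ | j' | _ <;>
    (try fin_cases j) <;> (try fin_cases j') <;>
    simp [dX, DX, phiF_tF, phiF_gen, Matrix.mul_apply, sum_LC, Matrix.diagonal_apply, phiU,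
      phiGen, Nm, LC.sgn, LC.deg]
  all_goals refine Lam.ext ?_ ?_
  all_goals simp [gX, gP, gR, gQ, gZ, Lam.u, d_X, D_X, d_mul, D_mul, d_tt, D_tt, dX, DX, Gen.deg]
  all_goals simp only [gen, tF]
  all_goals noncomm_ring
  all_goals simp [(tt_comm _).eq, mul_assoc]

set_option maxHeartbeats 2000000 in
theorem err_q1 (c c' : LC) (hc : LC.rv c = 0) :
    err k (Lam.of k (gen k (.q 1))) c c' = 0 := by
  simp only [err, phiL_dL_gen, phiL_of, phiF_gen, Matrix.sub_apply, Matrix.add_apply, dMx_apply,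
    Jm, Matrix.diagonal_mul, Matrix.mul_apply (M := sgMx k _), Matrix.mul_apply (M := Nm k),
    sgMx_apply, sum_LC]
  rcases c with _ | j | _ <;> simp [LC.rv] at hc <;> rcases c' with _ | j' | _ <;>
    (try fin_cases j) <;> (try fin_cases j') <;>
    simp [dX, DX, phiF_tF, phiF_gen, Matrix.mul_apply, sum_LC, Matrix.diagonal_apply, phiU,
      phiGen, Nm, LC.sgn, LC.deg]
  all_goals refine Lam.ext ?_ ?_
  all_goals simp [gX, gP, gR, gQ, gZ, Lam.u, d_X, D_X, d_mul, D_mul, d_tt, D_tt, dX, DX, Gen.deg]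
  all_goals simp only [gen, tF]
  all_goals noncomm_ring
  all_goals simp [(tt_comm _).eq, mul_assoc]

set_option maxHeartbeats 2000000 in
theorem err_z0 (c c' : LC) (hc : LC.rv c = 0) :
    err k (Lam.of k (gen k (.z 0))) c c' = 0 := by
  simp only [err, phiL_dL_gen, phiL_of, phiF_gen, Matrix.sub_apply, Matrix.add_apply, dMx_apply,
    Jm, Matrix.diagonal_mul, Matrix.mul_apply (M := sgMx k _), Matrix.mul_apply (M := Nm k),
    sgMx_apply, sum_LC]
  rcases c with _ | j | _ <;> simp [LC.rv] at hc <;> rcases c' with _ | j' | _ <;>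
    (try fin_cases j) <;> (try fin_cases j') <;>
    simp [dX, DX, phiF_tF, phiF_gen, Matrix.mul_apply, sum_LC, Matrix.diagonal_apply, phiU,
      phiGen, Nm, LC.sgn, LC.deg]
  all_goals refine Lam.ext ?_ ?_
  all_goals simp [gX, gP, gR, gQ, gZ, Lam.u, d_X, D_X, d_mul, D_mul, d_tt, D_tt, dX, DX, Gen.deg]
  all_goals simp only [gen, tF]
  all_goals noncomm_ring
  all_goals simp [(tt_comm _).eq, mul_assoc]

set_option maxHeartbeats 2000000 in
theorem err_z1 (c c' : LC) (hc : LC.rv c = 1) :
    err k (Lam.of k (gen k (.z 1))) c c' = 0 := by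
  simp only [err, phiL_dL_gen, phiL_of, phiF_gen, Matrix.sub_apply, Matrix.add_apply, dMx_apply,
    Jm, Matrix.diagonal_mul, Matrix.mul_apply (M := sgMx k _), Matrix.mul_apply (M := Nm k),
    sgMx_apply, sum_LC]
  rcases c with _ | j | _ <;> simp [LC.rv] at hc <;> rcases c' with _ | j' | _ <;>
    (try fin_cases j) <;> (try fin_cases j') <;>
    simp [dX, DX, phiF_tF, phiF_gen, Matrix.mul_apply, sum_LC, Matrix.diagonal_apply, phiU,
      phiGen, Nm, LC.sgn, LC.deg]
  all_goals refine Lam.ext ?_ ?_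
  all_goals simp [gX, gP, gR, gQ, gZ, Lam.u, d_X, D_X, d_mul, D_mul, d_tt, D_tt, dX, DX, Gen.deg]
  all_goals simp only [gen, tF]
  all_goals noncomm_ring
  all_goals simp [(tt_comm _).eq, mul_assoc]

theorem err_gen_entry (g : Gen) (c c' : LC) (hc : LC.rv c = g.tgt) :
    err k (Lam.of k (gen k g)) c c' = 0 := by
  rcases g with i | i | i | i | i
  · exact err_x k i c c' hc
  · exact err_p k i c c' hc
  · exact err_r k i c c' hc
  · fin_cases i
    · exact err_q0 k c c' hc
    · exact err_q1 k c c' hc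
  · fin_cases i
    · exact err_z0 k c c' hc
    · exact err_z1 k c c' hc

theorem err_gen_row (g : Gen) {l : LC → Lam k} (hl : RowAt k g.tgt l) :
    Matrix.vecMul l (err k (Lam.of k (gen k g))) = 0 := by
  funext c'
  simp only [Matrix.vecMul, dotProduct, Pi.zero_apply]
  refine Finset.sum_eq_zero fun c _ => ?_
  by_cases hc : LC.rv c = g.tgt
  · simp [err_gen_entry k g c c' hc]
  · simp [hl c hc]

theorem err_tpow (n : ℕ) : err k (Lam.of k (tF k ^ n)) = 0 := by
  induction n with
  | zero => simpa using err_one k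
  | succ n ih => rw [pow_succ, map_mul, err_mul, ih, err_t, zero_mul, mul_zero, add_zero]

theorem err_word (w : List Gen) : ∀ (a' a : Fin 2) (l : LC → Lam k), Path a' a w → RowAt k a' l →
    Matrix.vecMul l
      (err k (Lam.of k (MonoidAlgebra.single ((FreeMonoid.ofList w, 1) : M) 1))) = 0 := by
  induction w with
  | nil =>
    intro a' a l _ _
    have h : (MonoidAlgebra.single ((FreeMonoid.ofList [], 1) : M) (1 : k)) = 1 := rfl
    rw [h, map_one, err_one, Matrix.vecMul_zero]
  | cons g w ih =>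
    intro a' a l hp hl
    obtain ⟨hg, hw⟩ := hp
    subst hg
    have e : MonoidAlgebra.single ((FreeMonoid.ofList (g :: w), 1) : M) (1 : k)
        = gen k g * MonoidAlgebra.single ((FreeMonoid.ofList w, 1) : M) 1 := by
      simp only [gen, Algebra.X, MonoidAlgebra.single_mul_single]
      simp [FreeMonoid.ofList_cons]
    rw [e, map_mul, err_mul, Matrix.vecMul_add, ← Matrix.vecMul_vecMul, err_gen_row k g hl,
      Matrix.zero_vecMul, ← Matrix.vecMul_vecMul, phiL_of, phiF_gen]
    rw [ih _ _ _ hw hl.gen, add_zero]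

/-- `err` as a linear map. -/
noncomputable def errL : Lam k →ₗ[k] Matrix LC LC (Lam k) where
  toFun := err k
  map_add' := err_add k
  map_smul' := err_smul k

theorem err_supF {a' a : Fin 2} {D : ℤ} {x : F k} (hx : x ∈ supF k a' a D) {l : LC → Lam k}
    (hl : RowAt k a' l) : Matrix.vecMul l (err k (Lam.of k x)) = 0 := by
  show Matrix.vecMul l (errL k (Lam.of k x)) = 0
  rw [← MonoidAlgebra.sum_coeff_single x, map_finsuppSum, map_finsuppSum]
  simp only [Finsupp.sum, Matrix.vecMul_sum]
  refine Finset.sum_eq_zero fun m hm => ?_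
  obtain ⟨hp, -⟩ := (MonoidAlgebra.mem_supported.1 hx) hm
  obtain ⟨w, n⟩ := m
  have e : MonoidAlgebra.single ((w, n) : M) (x.coeff (w, n))
      = x.coeff (w, n) • (MonoidAlgebra.single ((w, 1) : M) 1
          * tF k ^ (Multiplicative.toAdd n)) := by
    simp only [tF, tt, MonoidAlgebra.single_pow, MonoidAlgebra.single_mul_single,
      MonoidAlgebra.smul_single]
    simp [← ofAdd_nsmul]
  rw [e, map_smul, map_smul, Matrix.vecMul_smul]
  show _ • Matrix.vecMul l (err k _) = 0
  rw [map_mul, err_mul, err_tpow, mul_zero, add_zero, ← Matrix.vecMul_vecMul]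
  have h := err_word k (FreeMonoid.toList w) a' a l hp hl
  simp only [FreeMonoid.ofList_toList] at h
  rw [h, Matrix.zero_vecMul, smul_zero]

/-- The key identity. -/
theorem err_supL {a' a : Fin 2} {D : ℤ} {x : Lam k} (hx : x ∈ supL k a' a D) {l : LC → Lam k}
    (hl : RowAt k a' l) : Matrix.vecMul l (err k x) = 0 := by
  have e : x = Lam.of k (Lam.re k x) + Lam.of k (Lam.im k x) * Lam.u k :=
    Lam.ext (by simp [Lam.u]) (by simp [Lam.u])
  rw [e, err_add, err_mul, err_u, mul_zero, add_zero, Matrix.vecMul_add,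
    ← Matrix.vecMul_vecMul, err_supF k hx.1 hl, err_supF k hx.2 hl, Matrix.zero_vecMul, add_zero]

end P195.Algebra
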