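import Mathlib

/-!
P195, algebra seat: twisted derivations as homomorphisms into triangular matrices, and the
principle that identities between them only have to be checked on generators.
-/

namespace P195.Algebra

variable {k F R : Type} [CommRing k] [Ring F] [Ring R] [Algebra k F] [Algebra k R]

/-- The top right entry of a map into 2x2 matrices. -/
def triDer (φ : F →ₐ[k] Matrix (Fin 2) (Fin 2) R) : F →ₗ[k] R where
  toFun a := φ a 0 1
  map_add' a b := by simp
  map_smul' c a := by simp

lemma triDer_apply (φ : F →ₐ[k] Matrix (Fin 2) (Fin 2) R) (a : F) : triDer φ a = φ a 0 1 := rfl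

/-- If the generators go to triangular matrices with diagonal `(f, g)`, so does everything. -/
lemma tri_diag {s : Set F} (hs : Algebra.adjoin k s = ⊤) (φ : F →ₐ[k] Matrix (Fin 2) (Fin 2) R)
    (f g : F →ₐ[k] R) (h : ∀ a ∈ s, φ a 0 0 = f a ∧ φ a 1 1 = g a ∧ φ a 1 0 = 0) (a : F) :
    φ a 0 0 = f a ∧ φ a 1 1 = g a ∧ φ a 1 0 = 0 := by
  have ha : a ∈ Algebra.adjoin k s := hs ▸ Algebra.mem_top
  induction ha using Algebra.adjoin_induction with
  | mem x hx => exact h x hx
  | algebraMap c => simp [Matrix.algebraMap_matrix_apply]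
  | add x y _ _ hx hy => simp [hx.1, hx.2.1, hx.2.2, hy.1, hy.2.1, hy.2.2]
  | mul x y _ _ hx hy =>
      simp [Matrix.mul_apply, Fin.sum_univ_two, hx.1, hx.2.1, hx.2.2, hy.1, hy.2.1, hy.2.2]

/-- The Leibniz rule. -/
lemma triDer_mul {φ : F →ₐ[k] Matrix (Fin 2) (Fin 2) R} {f g : F →ₐ[k] R}
    (h : ∀ a, φ a 0 0 = f a ∧ φ a 1 1 = g a ∧ φ a 1 0 = 0) (a b : F) :
    triDer φ (a * b) = f a * triDer φ b + triDer φ a * g b := by
  simp [triDer_apply, Matrix.mul_apply, Fin.sum_univ_two, (h a).1, (h b).2.1]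

/-- A twisted derivation vanishing on generators vanishes. -/
lemma eq_zero_of_leibniz {s : Set F} (hs : Algebra.adjoin k s = ⊤) (δ : F →ₗ[k] R)
    (f g : F →ₐ[k] R) (hmul : ∀ a b, δ (a * b) = f a * δ b + δ a * g b)
    (h : ∀ a ∈ s, δ a = 0) (a : F) : δ a = 0 := by
  have h1 : δ 1 = 0 := by
    have := hmul 1 1
    rw [mul_one, map_one f, map_one g, one_mul, mul_one] at this
    exact left_eq_add.mp this
  have ha : a ∈ Algebra.adjoin k s := hs ▸ Algebra.mem_top
  induction ha using Algebra.adjoin_induction with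
  | mem x hx => exact h x hx
  | algebraMap c => rw [Algebra.algebraMap_eq_smul_one, map_smul, h1, smul_zero]
  | add x y _ _ hx hy => rw [map_add, hx, hy, add_zero]
  | mul x y _ _ hx hy => rw [hmul, hx, hy, mul_zero, zero_mul, add_zero]

/-- Two twisted derivations for the same pair agree if they agree on generators. -/
lemma eq_of_leibniz {s : Set F} (hs : Algebra.adjoin k s = ⊤) {δ ε : F →ₗ[k] R}
    (f g : F →ₐ[k] R) (hδ : ∀ a b, δ (a * b) = f a * δ b + δ a * g b)
    (hε : ∀ a b, ε (a * b) = f a * ε b + ε a * g b) (h : ∀ a ∈ s, δ a = ε a) (a : F) :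
    δ a = ε a := by
  have := eq_zero_of_leibniz hs (δ - ε) f g (fun a b => by
    simp only [LinearMap.sub_apply, hδ, hε]; noncomm_ring) (fun a ha => by simp [h a ha]) a
  simpa [sub_eq_zero] using this

end P195.Algebra
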