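import Mathlib

/-!
P195: square-zero extension by rows twisted by a matrix representation.
-/

namespace P195.Algebra

variable {k R ι : Type} [Field k] [Ring R] [Algebra k R] [Fintype ι] [DecidableEq ι]

/-- Rows over `R`, the right action being twisted by `φ`. -/
def Tw (_φ : R →ₐ[k] Matrix ι ι R) : Type := ι → R

variable {φ : R →ₐ[k] Matrix ι ι R}

namespace Tw

noncomputable instance : AddCommGroup (Tw φ) := inferInstanceAs (AddCommGroup (ι → R))
noncomputable instance : Module R (Tw φ) := inferInstanceAs (Module R (ι → R))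
noncomputable instance : Module k (Tw φ) := inferInstanceAs (Module k (ι → R))

/-- The underlying row. -/
def row (l : Tw φ) : ι → R := l

/-- A row as an element. -/
def mk (l : ι → R) : Tw φ := l

@[simp] theorem row_mk (l : ι → R) : (mk l : Tw φ).row = l := rfl
theorem ext {l l' : Tw φ} (h : l.row = l'.row) : l = l' := h
@[simp] theorem row_zero : (0 : Tw φ).row = 0 := rfl
@[simp] theorem row_add (l l' : Tw φ) : (l + l').row = l.row + l'.row := rfl
@[simp] theorem row_neg (l : Tw φ) : (-l).row = -l.row := rfl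
@[simp] theorem row_sub (l l' : Tw φ) : (l - l').row = l.row - l'.row := rfl
@[simp] theorem row_smul (a : R) (l : Tw φ) : (a • l).row = a • l.row := rfl
@[simp] theorem row_ksmul (c : k) (l : Tw φ) : (c • l).row = c • l.row := rfl

noncomputable instance : Module Rᵐᵒᵖ (Tw φ) where
  smul a l := mk (Matrix.vecMul l.row (φ a.unop))
  one_smul l := ext (by show Matrix.vecMul l.row (φ 1) = l.row; simp)
  mul_smul a b l := ext (by
    show Matrix.vecMul l.row (φ (b.unop * a.unop))
      = Matrix.vecMul (Matrix.vecMul l.row (φ b.unop)) (φ a.unop)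
    rw [map_mul, Matrix.vecMul_vecMul])
  smul_zero a := ext (by show Matrix.vecMul 0 (φ a.unop) = 0; simp)
  smul_add a l l' := ext (Matrix.add_vecMul _ _ _)
  add_smul a b l := ext (by
    show Matrix.vecMul l.row (φ (a.unop + b.unop)) = _
    rw [map_add, Matrix.vecMul_add]; rfl)
  zero_smul l := ext (by show Matrix.vecMul l.row (φ 0) = 0; simp)

theorem row_op (a : R) (l : Tw φ) :
    (MulOpposite.op a • l).row = Matrix.vecMul l.row (φ a) := rfl

noncomputable instance : SMulCommClass R Rᵐᵒᵖ (Tw φ) :=
  ⟨fun a b l => ext (Matrix.smul_vecMul a l.row (φ b.unop)).symm⟩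

noncomputable instance : IsScalarTower k R (Tw φ) :=
  ⟨fun c a l => ext (funext fun i => smul_assoc c a (l.row i))⟩

noncomputable instance : IsScalarTower k Rᵐᵒᵖ (Tw φ) :=
  ⟨fun c a l => ext (by
    show Matrix.vecMul l.row (φ (c • a.unop)) = c • Matrix.vecMul l.row (φ a.unop)
    rw [map_smul, Matrix.vecMul_smul])⟩

end Tw

/-- The square-zero extension. -/
abbrev Ext1 (φ : R →ₐ[k] Matrix ι ι R) := TrivSqZeroExt R (Tw φ)

/-- Build an element. -/
noncomputable def Ext1.mk (a : R) (l : ι → R) : Ext1 φ :=
  TrivSqZeroExt.inl a + TrivSqZeroExt.inr (Tw.mk l)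

noncomputable example : Ring (Ext1 φ) := inferInstance
noncomputable example : Algebra k (Ext1 φ) := inferInstance

theorem Ext1.row_mul (x y : Ext1 φ) :
    (x * y).snd.row = x.fst • y.snd.row + Matrix.vecMul x.snd.row (φ y.fst) := by
  rw [TrivSqZeroExt.snd_mul, Tw.row_add, Tw.row_smul, Tw.row_op]

end P195.Algebra
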