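import Vale.Agent.P195.Algebra.Base
import Vale.Agent.P195.Algebra.Tw

/-!
P195: `Λ = F ⊕ F u` with `u a = sg a u`, and the representation `Φ` on the four cells.
-/

namespace P195.Algebra

variable (k : Type) [Field k]

/-- `sg` as a one-by-one matrix. -/
noncomputable def sg1 : F k →ₐ[k] Matrix Unit Unit (F k) :=
  (Matrix.diagonalAlgHom k).comp (AlgHom.pi (A := fun _ : Unit => F k) fun _ => sg k)

/-- The algebra `Λ`; an element `(a, b)` stands for `a + b u`. -/
abbrev Lam := Ext1 (sg1 k)

/-- `a + b u`. -/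
noncomputable def Lam.mk (a b : F k) : Lam k := Ext1.mk a fun _ => b

/-- The part without `u`. -/
noncomputable def Lam.re : Lam k →ₗ[k] F k where
  toFun x := x.fst
  map_add' _ _ := rfl
  map_smul' _ _ := rfl

/-- The coefficient of `u`. -/
noncomputable def Lam.im : Lam k →ₗ[k] F k where
  toFun x := x.snd.row ()
  map_add' _ _ := rfl
  map_smul' _ _ := rfl

variable {k}

theorem Lam.ext {x y : Lam k} (h1 : Lam.re k x = Lam.re k y) (h2 : Lam.im k x = Lam.im k y) :
    x = y :=
  TrivSqZeroExt.ext h1 (Tw.ext (funext fun _ => h2))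

variable (k)

@[simp] theorem Lam.re_mk (a b : F k) : Lam.re k (Lam.mk k a b) = a := by
  show (Ext1.mk (φ := sg1 k) a fun _ => b).fst = a
  simp [Ext1.mk]

@[simp] theorem Lam.im_mk (a b : F k) : Lam.im k (Lam.mk k a b) = b := by
  show (Ext1.mk (φ := sg1 k) a fun _ => b).snd.row () = b
  simp [Ext1.mk]

@[simp] theorem Lam.re_one : Lam.re k 1 = 1 := rfl
@[simp] theorem Lam.im_one : Lam.im k 1 = 0 := rfl
@[simp] theorem Lam.re_mul (x y : Lam k) : Lam.re k (x * y) = Lam.re k x * Lam.re k y := rfl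

@[simp] theorem Lam.im_mul (x y : Lam k) :
    Lam.im k (x * y) = Lam.re k x * Lam.im k y + Lam.im k x * sg k (Lam.re k y) := by
  refine (congrFun (Ext1.row_mul (φ := sg1 k) x y) ()).trans ?_
  show x.fst * y.snd.row () + ∑ j, x.snd.row j * sg1 k y.fst j () = _
  simp [sg1]
  rfl

/-- The element `u`. -/
noncomputable def Lam.u : Lam k := Lam.mk k 0 1

/-- `F` inside `Λ`. -/
noncomputable def Lam.of : F k →ₐ[k] Lam k := TrivSqZeroExt.inlAlgHom k (F k) _

@[simp] theorem Lam.re_of (a : F k) : Lam.re k (Lam.of k a) = a := rfl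
@[simp] theorem Lam.im_of (a : F k) : Lam.im k (Lam.of k a) = 0 := rfl

/-- The differential of `Λ`: `d (a + b u) = d a + u (D a) + (d b) u`. -/
noncomputable def dL : Lam k →ₗ[k] Lam k where
  toFun x := Lam.mk k (dF k (Lam.re k x)) (sg k (DF k (Lam.re k x)) + dF k (Lam.im k x))
  map_add' x y := Lam.ext (by simp) (by simp [add_add_add_comm])
  map_smul' c x := Lam.ext (by simp) (by simp)

/-- The sign automorphism of `Λ` as a linear map. -/
noncomputable def sgL : Lam k →ₗ[k] Lam k where
  toFun x := Lam.mk k (sg k (Lam.re k x)) (-sg k (Lam.im k x))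
  map_add' x y := Lam.ext (by simp) (by simp [add_comm])
  map_smul' c x := Lam.ext (by simp) (by simp)

/-- The four cells of the bimodule. -/
inductive LC
  | E
  | F (i : Fin 2)
  | H
  deriving DecidableEq, Fintype

namespace LC

/-- The degree of a cell (before the shift by four). -/
def deg : LC → ℕ
  | H => 1
  | _ => 0

/-- The vertex on the right. -/
def rv : LC → Fin 2
  | E => 1
  | _ => 0

/-- The vertex on the left. -/
def lv : LC → Fin 2
  | H => 1
  | _ => 0

/-- The sign. -/
def sgn (c : LC) : k := (-1 : k) ^ c.deg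

end LC

/-- The matrix `N` of the differential of the cells. -/
noncomputable def Nm : Matrix LC LC (Lam k)
  | .H, .F i => if i = 0 then Lam.of k (gX k 1) else -Lam.of k (gX k 0)
  | _, _ => 0

/-- The values of `Φ` on the generators. -/
noncomputable def phiGen : Gen → Matrix LC LC (Lam k)
  | .x i, .E, .F j => if i = j then 1 else 0
  | .p j, .F i, .E =>
      Lam.of k (gP k j * gX k i) - if i = j then Lam.of k (tF k) else 0
  | .p j, .H, .E => -Lam.of k (gR k j)
  | .r j, .E, .H => -Lam.of k (gP k j)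
  | .q j, .F i, .E =>
      Lam.of k (gQ k i * gX k j)
        + if j = 1 ∧ i = 0 then Lam.mk k 0 (tF k * tF k)
          else if j = 0 ∧ i = 1 then -Lam.mk k 0 (tF k * tF k) else 0
  | .q j, .H, .E => Lam.of k (gZ k 1 * gX k j)
  | .z a, .E, .E => if a = 1 then Lam.of k (gZ k 0) else 0
  | .z a, .F i, .H => if a = 0 then -Lam.of k (gQ k i) else 0
  | .z a, .H, .H => if a = 0 then -Lam.of k (gZ k 1) else 0
  | _, _, _ => 0

theorem Lam.tF_comm (x : Lam k) : Commute (Lam.of k (tF k)) x :=
  Lam.ext (by simp [(Algebra.tF_comm k (Lam.re k x)).eq])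
    (by simp [(Algebra.tF_comm k (Lam.im k x)).eq])

/-- `Φ` on `F`. -/
noncomputable def phiF : F k →ₐ[k] Matrix LC LC (Lam k) :=
  ext (Matrix.scalar LC (Lam.of k (tF k))) (phiGen k)
    (Matrix.scalar_comm _ (Lam.tF_comm k))

/-- The image of `u`. -/
noncomputable def phiU : Matrix LC LC (Lam k) :=
  Matrix.diagonal fun c => LC.sgn k c • Lam.u k

/-- `Φ (a + b u) = Φ a + Φ b Φ u`. -/
noncomputable def phiFun (x : Lam k) : Matrix LC LC (Lam k) :=
  phiF k (Lam.re k x) + phiF k (Lam.im k x) * phiU k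

end P195.Algebra
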