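import Vale.Agent.P195.Algebra.Key

/-!
P195, algebra seat: the differential and the sign of `T∞`; Leibniz on composable elements.
-/

namespace P195.Algebra

variable (k : Type) [Field k]

/-- The row of cell coefficients. -/
noncomputable def Tinf.cells : Tinf k →ₗ[k] (LC → Lam k) where
  toFun x c := Tinf.cell k c x
  map_add' x y := funext fun c => by simp
  map_smul' r x := funext fun c => by simp

@[simp] theorem Tinf.cells_apply (x : Tinf k) (c : LC) :
    Tinf.cells k x c = Tinf.cell k c x := rfl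

variable {k}

theorem Tinf.ext {x y : Tinf k} (h1 : Tinf.lam k x = Tinf.lam k y)
    (h2 : Tinf.cells k x = Tinf.cells k y) : x = y :=
  TrivSqZeroExt.ext h1 (Tw.ext h2)

variable (k)

@[simp] theorem Tinf.lam_mk (a : Lam k) (l : LC → Lam k) : Tinf.lam k (Tinf.mk k a l) = a := by
  show (Ext1.mk (φ := phiL k) a l).fst = a
  simp [Ext1.mk]

@[simp] theorem Tinf.cell_mk (a : Lam k) (l : LC → Lam k) (c : LC) :
    Tinf.cell k c (Tinf.mk k a l) = l c := by
  show (Ext1.mk (φ := phiL k) a l).snd.row c = l c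
  simp [Ext1.mk]

@[simp] theorem Tinf.lam_one : Tinf.lam k 1 = 1 := rfl
@[simp] theorem Tinf.cell_one (c : LC) : Tinf.cell k c 1 = 0 := rfl
@[simp] theorem Tinf.lam_mul (x y : Tinf k) :
    Tinf.lam k (x * y) = Tinf.lam k x * Tinf.lam k y := rfl

theorem Tinf.cells_mul (x y : Tinf k) : Tinf.cells k (x * y)
    = Tinf.lam k x • Tinf.cells k y + Matrix.vecMul (Tinf.cells k x) (phiL k (Tinf.lam k y)) :=
  funext fun c => congrFun (Ext1.row_mul (φ := phiL k) x y) c

/-- The sign on rows. -/
noncomputable def sgRow : (LC → Lam k) →ₗ[k] (LC → Lam k) where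
  toFun l c := sgL k (l c)
  map_add' a b := funext fun c => by simp
  map_smul' r a := funext fun c => by simp

/-- The differential on rows without the cell part. -/
noncomputable def dRow : (LC → Lam k) →ₗ[k] (LC → Lam k) where
  toFun l c := dL k (l c)
  map_add' a b := funext fun c => by simp
  map_smul' r a := funext fun c => by simp

@[simp] theorem sgRow_apply (l : LC → Lam k) (c : LC) : sgRow k l c = sgL k (l c) := rfl
@[simp] theorem dRow_apply (l : LC → Lam k) (c : LC) : dRow k l c = dL k (l c) := rfl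

@[simp] theorem dT_lam (x : Tinf k) : Tinf.lam k (dT k x) = dL k (Tinf.lam k x) := by simp [dT]

theorem dT_cells (x : Tinf k) : Tinf.cells k (dT k x)
    = dRow k (Tinf.cells k x) + Matrix.vecMul (sgRow k (Tinf.cells k x)) (Nm k) := by
  funext c
  simp [dT, Matrix.vecMul, dotProduct]

@[simp] theorem sgT_lam (x : Tinf k) : Tinf.lam k (sgT k x) = sgL k (Tinf.lam k x) := by simp [sgT]

theorem sgT_cells (x : Tinf k) :
    Tinf.cells k (sgT k x) = Matrix.vecMul (sgRow k (Tinf.cells k x)) (Jm k) := by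
  funext c
  simp [sgT, Jm, Matrix.vecMul_diagonal]

theorem sgRow_vecMul (l : LC → Lam k) (A : Matrix LC LC (Lam k)) :
    sgRow k (Matrix.vecMul l A) = Matrix.vecMul (sgRow k l) (sgMx k A) := by
  funext c
  simp [Matrix.vecMul, dotProduct, sgL_mul]

theorem dRow_vecMul (l : LC → Lam k) (A : Matrix LC LC (Lam k)) :
    dRow k (Matrix.vecMul l A)
      = Matrix.vecMul (dRow k l) A + Matrix.vecMul (sgRow k l) (dMx k A) := by
  funext c
  simp [Matrix.vecMul, dotProduct, dL_mul, Finset.sum_add_distrib]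

theorem sgRow_smul (a : Lam k) (l : LC → Lam k) :
    sgRow k (a • l) = sgL k a • sgRow k l := by
  funext c
  simp [sgL_mul]

theorem dRow_smul (a : Lam k) (l : LC → Lam k) :
    dRow k (a • l) = dL k a • l + sgL k a • dRow k l := by
  funext c
  simp [dL_mul]

@[simp] theorem sgRow_sgRow (l : LC → Lam k) : sgRow k (sgRow k l) = l := funext fun c => by simp

theorem sgT_mul (x y : Tinf k) : sgT k (x * y) = sgT k x * sgT k y := by
  refine Tinf.ext (by simp [sgL_mul]) ?_
  rw [sgT_cells, Tinf.cells_mul, Tinf.cells_mul, map_add, sgRow_smul, sgRow_vecMul,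
    Matrix.add_vecMul, Matrix.smul_vecMul, Matrix.vecMul_vecMul, sgMx_phiL, sgT_cells, sgT_cells,
    Matrix.vecMul_vecMul, sgT_lam, sgT_lam]

theorem sgT_one : sgT k (1 : Tinf k) = 1 := by
  refine Tinf.ext (by simp) (funext fun c => ?_)
  simp [sgT]

theorem sgMx_Nm : sgMx k (Nm k) = Nm k := by
  ext c c' : 1
  exact Nm_sg k c c'

theorem dMx_Nm : dMx k (Nm k) = 0 := by
  ext c c' : 1
  exact dL_Nm k c c'

theorem dT_dT (x : Tinf k) : dT k (dT k x) = 0 := by
  refine Tinf.ext (by simp [dL_dL]) ?_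
  have h : ∀ l : LC → Lam k, sgRow k (dRow k l) = -dRow k (sgRow k l) := fun l =>
    funext fun c => by simp [dL_sgL]
  have h2 : ∀ l : LC → Lam k, dRow k (dRow k l) = 0 := fun l => funext fun c => dL_dL k _
  rw [map_zero, dT_cells, dT_cells, map_add, map_add, h2, dRow_vecMul, sgRow_vecMul, sgMx_Nm,
    dMx_Nm, sgRow_sgRow, h, Matrix.add_vecMul, Matrix.neg_vecMul, Matrix.vecMul_vecMul, Nm_sq,
    Matrix.vecMul_zero]
  abel

theorem rowAt_sgRow {a : Fin 2} {l : LC → Lam k} (hl : RowAt k a l) : RowAt k a (sgRow k l) :=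
  fun c hc => by simp [hl c hc]

theorem rowAt_of_supT {v' v : Vtx} {x : Tinf k} (hx : x ∈ supT k v' v) :
    RowAt k v.1 (Tinf.cells k x) := fun c hc => by
  have h := (mem_supRow k).1 ((mem_supT k).1 hx).2 c
  simpa [hc] using h

theorem dT_mul {v'' v' v : Vtx} {x y : Tinf k} (hx : x ∈ supT k v'' v')
    (hy : y ∈ supT k v' v) : dT k (x * y) = dT k x * y + sgT k x * dT k y := by
  refine Tinf.ext (by simp [dL_mul]) ?_
  have key : Matrix.vecMul (sgRow k (Tinf.cells k x)) (err k (Tinf.lam k y)) = 0 :=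
    err_supL k ((mem_supT k).1 hy).1 (rowAt_sgRow k (rowAt_of_supT k hx))
  rw [err, Matrix.vecMul_sub, Matrix.vecMul_sub, Matrix.vecMul_add, sub_sub, sub_eq_zero] at key
  rw [dT_cells, Tinf.cells_mul, map_add, map_add, dRow_smul, sgRow_smul, dRow_vecMul, sgRow_vecMul,
    Matrix.add_vecMul, Matrix.smul_vecMul, map_add (Tinf.cells k), Tinf.cells_mul, Tinf.cells_mul,
    dT_lam, dT_lam, sgT_lam, dT_cells, dT_cells, sgT_cells, smul_add, Matrix.add_vecMul,
    Matrix.vecMul_vecMul, Matrix.vecMul_vecMul, Matrix.vecMul_vecMul]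
  generalize Tinf.cells k x = l at key ⊢
  generalize Matrix.vecMul (sgRow k l) (dMx k (phiL k (Tinf.lam k y))) = A at key ⊢
  rw [eq_sub_of_add_eq key]
  abel

end P195.Algebra
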