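import Vale.Agent.P195.Window.Defs

/-!
P195, algebra seat: a graded differential on a ring `R` passes entrywise to every subalgebra of
matrices over `R` that is stable under it and lives in degrees `0..N`.
-/

namespace P195.Window

open Finset

/-- The data of a dg algebra without a bound on the degrees. -/
structure PreDGA (k R : Type) [Field k] [Ring R] [Algebra k R] where
  pr : ℤ → R →ₗ[k] R
  pr_pr : ∀ m n a, pr m (pr n a) = if m = n then pr n a else 0
  one_mem : pr 0 1 = 1
  mul_mem : ∀ (m n : ℤ) a b, pr m a = a → pr n b = b → pr (m + n) (a * b) = a * b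
  d : R →ₗ[k] R
  J : R →ₐ[k] R
  J_apply : ∀ (n : ℤ) a, pr n a = a → J a = ((-1 : k) ^ n.natAbs) • a
  d_mem : ∀ (n : ℤ) a, pr n a = a → pr (n - 1) (d a) = d a
  d_d : ∀ a, d (d a) = 0
  d_mul : ∀ a b, d (a * b) = d a * b + J a * d b

variable {k R : Type} [Field k] [Ring R] [Algebra k R]
variable {ι : Type} [Fintype ι] [DecidableEq ι]

/-- An entrywise linear map on matrices. -/
def entrywise (f : R →ₗ[k] R) : Matrix ι ι R →ₗ[k] Matrix ι ι R where
  toFun M := M.map f
  map_add' M N := by ext; simp
  map_smul' c M := by ext; simp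

@[simp] lemma entrywise_apply (f : R →ₗ[k] R) (M : Matrix ι ι R) (i j : ι) :
    entrywise f M i j = f (M i j) := rfl

/-- A stable subalgebra of matrices as a dg algebra. -/
noncomputable def PreDGA.matrix (B : PreDGA k R) (S : Subalgebra k (Matrix ι ι R)) (N : ℕ)
    (hpr : ∀ n, ∀ M ∈ S, entrywise (B.pr n) M ∈ S)
    (hd : ∀ M ∈ S, entrywise B.d M ∈ S)
    (hJ : ∀ M ∈ S, B.J.mapMatrix M ∈ S)
    (hN : ∀ M ∈ S, ∀ i j, ∑ n ∈ range (N + 1), B.pr n (M i j) = M i j) :
    DGA k S where
  width := N
  pr n := (entrywise (B.pr n)).restrict (p := Subalgebra.toSubmodule S)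
    (q := Subalgebra.toSubmodule S) (hpr n)
  pr_pr m n a := by
    refine Subtype.ext (Matrix.ext fun i j => ?_)
    show B.pr m (B.pr n (a.1 i j)) = _
    rw [B.pr_pr]
    split <;> rfl
  sum_pr a := by
    refine Subtype.ext (Matrix.ext fun i j => ?_)
    rw [AddSubmonoidClass.coe_finsetSum, Matrix.sum_apply]
    exact hN a.1 a.2 i j
  one_mem := by
    refine Subtype.ext (Matrix.ext fun i j => ?_)
    show B.pr 0 ((1 : Matrix ι ι R) i j) = (1 : Matrix ι ι R) i j
    rw [Matrix.one_apply]
    split
    · exact B.one_mem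
    · exact map_zero _
  mul_mem m n a b ha hb := by
    refine Subtype.ext (Matrix.ext fun i j => ?_)
    show B.pr (m + n) ((a.1 * b.1) i j) = (a.1 * b.1) i j
    rw [Matrix.mul_apply, map_sum]
    refine sum_congr rfl fun l _ => B.mul_mem m n _ _ ?_ ?_
    · exact congrArg (fun x : S => x.1 i l) ha
    · exact congrArg (fun x : S => x.1 l j) hb
  d := (entrywise B.d).restrict (p := Subalgebra.toSubmodule S)
    (q := Subalgebra.toSubmodule S) hd
  J := (B.J.mapMatrix.comp S.val).codRestrict S fun M => hJ M.1 M.2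
  J_apply n a ha := by
    refine Subtype.ext (Matrix.ext fun i j => ?_)
    show B.J (a.1 i j) = ((-1 : k) ^ n) • a.1 i j
    simpa using B.J_apply n _ (congrArg (fun x : S => x.1 i j) ha)
  d_mem n a ha := by
    refine Subtype.ext (Matrix.ext fun i j => ?_)
    exact B.d_mem n _ (congrArg (fun x : S => x.1 i j) ha)
  d_d a := by
    refine Subtype.ext (Matrix.ext fun i j => ?_)
    exact B.d_d _
  d_mul a b := by
    refine Subtype.ext (Matrix.ext fun i j => ?_)
    show B.d ((a.1 * b.1) i j) =
      (entrywise B.d a.1 * b.1 + B.J.mapMatrix a.1 * entrywise B.d b.1) i j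
    simp only [Matrix.add_apply, Matrix.mul_apply, map_sum, B.d_mul, sum_add_distrib,
      entrywise_apply, AlgHom.mapMatrix_apply, Matrix.map_apply]

end P195.Window
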