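import Vale.Agent.P195.Algebra.Support

/-!
P195: the six-vertex window `T` of `T∞`, with its grading and operators.
-/

namespace P195.Algebra

variable (k : Type) [Field k]

/-- The six vertices `(a, b)`. -/
abbrev Vtx := Fin 2 × Fin 3

/-- The allowed entries from `v` to `v'`. -/
noncomputable def supT (v' v : Vtx) : Submodule k (Tinf k) :=
  (supL k v'.1 v.1 ((v'.2.val : ℤ) - v.2.val)).comap (Tinf.lam k) ⊓
    ⨅ c : LC, (if LC.rv c = v.1 then supL k v'.1 (LC.lv c) ((v'.2.val : ℤ) - v.2.val) else ⊥).comap
      (Tinf.cell k c)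

theorem mem_supT {v' v : Vtx} {x : Tinf k} :
    x ∈ supT k v' v ↔ Tinf.lam k x ∈ supL k v'.1 v.1 ((v'.2.val : ℤ) - v.2.val) ∧
      (fun c => Tinf.cell k c x) ∈ supRow k v'.1 v.1 ((v'.2.val : ℤ) - v.2.val) := by
  simp [supT, mem_supRow, Submodule.mem_iInf]

theorem supT_one (v : Vtx) : (1 : Tinf k) ∈ supT k v v := by
  rw [mem_supT]
  refine ⟨?_, ?_⟩
  · rw [sub_self, mem_supL]
    exact ⟨supF_one k v.1, zero_mem _⟩
  · rw [mem_supRow]
    intro c
    have : Tinf.cell k c (1 : Tinf k) = 0 := rfl
    rw [this]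
    exact zero_mem _

theorem supT_mul {v'' v' v : Vtx} {x y : Tinf k} (hx : x ∈ supT k v'' v') (hy : y ∈ supT k v' v) :
    x * y ∈ supT k v'' v := by
  rw [mem_supT] at hx hy ⊢
  have hΔ : ((v''.2.val : ℤ) - v'.2.val) + ((v'.2.val : ℤ) - v.2.val)
      = (v''.2.val : ℤ) - v.2.val := by ring
  refine ⟨?_, ?_⟩
  · have := supL_mul k hx.1 hy.1
    rwa [hΔ] at this
  · have e : (fun c => Tinf.cell k c (x * y))
        = Tinf.lam k x • (fun c => Tinf.cell k c y)
          + Matrix.vecMul (fun c => Tinf.cell k c x) (phiL k (Tinf.lam k y)) :=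
      funext fun c => congrFun (Ext1.row_mul (φ := phiL k) x y) c
    rw [e]
    refine add_mem ?_ (by simpa [hΔ] using phiL_row_sup k hx.2 hy.1)
    rw [mem_supRow]
    intro c
    have h2 := (mem_supRow k).1 hy.2 c
    show Tinf.lam k x * Tinf.cell k c y ∈ _
    split_ifs with hc
    · rw [if_pos hc] at h2
      have := supL_mul k hx.1 h2
      rwa [hΔ] at this
    · rw [if_neg hc, Submodule.mem_bot] at h2
      simp [h2]

/-- The window: matrices with allowed entries. -/
noncomputable def Twin : Subalgebra k (Matrix Vtx Vtx (Tinf k)) where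
  carrier := {M | ∀ v' v, M v' v ∈ supT k v' v}
  mul_mem' {M N} hM hN v' v := by
    rw [Matrix.mul_apply]
    exact Submodule.sum_mem _ fun w _ => supT_mul k (hM v' w) (hN w v)
  one_mem' v' v := by
    rw [Matrix.one_apply]
    split_ifs with h
    · subst h; exact supT_one k v'
    · exact zero_mem _
  add_mem' {M N} hM hN v' v := add_mem (hM v' v) (hN v' v)
  zero_mem' _ _ := zero_mem _
  algebraMap_mem' r v' v := by
    rw [Matrix.algebraMap_matrix_apply]
    split_ifs with h
    · subst h
      rw [Algebra.algebraMap_eq_smul_one]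
      exact Submodule.smul_mem _ r (supT_one k v')
    · exact zero_mem _

/-- The algebra `T`. -/
abbrev T := ↥(Twin k)

/-- An entry of an element of `T`. -/
noncomputable def T.entry (v' v : Vtx) : T k →ₗ[k] Tinf k where
  toFun x := x.1 v' v
  map_add' _ _ := rfl
  map_smul' _ _ := rfl

/-- An entry as an element of `T`. -/
noncomputable def T.single (v' v : Vtx) : supT k v' v →ₗ[k] T k where
  toFun x := ⟨Matrix.single v' v x.1, fun a b => by
    rw [Matrix.single_apply]
    split_ifs with h
    · obtain ⟨rfl, rfl⟩ := h; exact x.2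
    · exact zero_mem _⟩
  map_add' x y := Subtype.ext (Matrix.single_add v' v x.1 y.1)
  map_smul' c x := Subtype.ext (Matrix.smul_single c v' v x.1).symm

/-- The idempotent of a vertex. -/
noncomputable def T.idem (v : Vtx) : T k := T.single k v v ⟨1, supT_one k v⟩

/-- Monomials of homological degree `n`. -/
noncomputable def filtF (n : ℤ) : F k →ₗ[k] F k := part degHom n

/-- The part of degree `n` of `Λ`; `u` has degree one. -/
noncomputable def filtL (n : ℤ) : Lam k →ₗ[k] Lam k where
  toFun x := Lam.mk k (filtF k n (Lam.re k x)) (filtF k (n - 1) (Lam.im k x))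
  map_add' x y := Lam.ext (by simp) (by simp)
  map_smul' c x := Lam.ext (by simp) (by simp)

/-- The part of degree `n` of `T∞`; the cell `c` has degree `4 + deg c`. -/
noncomputable def filtT (n : ℤ) : Tinf k →ₗ[k] Tinf k where
  toFun x := Tinf.mk k (filtL k n (Tinf.lam k x)) fun c =>
    filtL k (n - 4 - LC.deg c) (Tinf.cell k c x)
  map_add' x y := by
    simp only [Tinf.mk, Ext1.mk, map_add]
    ext1
    · simp
    · refine Tw.ext (funext fun c => ?_)
      simp
  map_smul' c x := by
    simp only [Tinf.mk, Ext1.mk, map_smul]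
    ext1
    · simp
    · refine Tw.ext (funext fun i => ?_)
      simp

/-- The width of `T`. -/
def width : ℕ := 8

end P195.Algebra
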