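import Vale.Agent.P195.Algebra.Tinf

/-!
P195: supports. `supF a' a Δ` is spanned by the paths `a → a'` of window degree `Δ`.
-/

namespace P195.Algebra

variable (k : Type) [Field k]

/-- Paths from `a` to `a'` of window degree `Δ`. -/
def supSet (a' a : Fin 2) (Δ : ℤ) : Set M :=
  {m | Path a' a (FreeMonoid.toList m.1) ∧ (mwt m : ℤ) = Δ}

/-- Their span. -/
noncomputable def supF (a' a : Fin 2) (Δ : ℤ) : Submodule k (F k) :=
  MonoidAlgebra.supported k k (supSet a' a Δ)

/-- Elements of `Λ` with both parts supported. -/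
noncomputable def supL (a' a : Fin 2) (Δ : ℤ) : Submodule k (Lam k) :=
  (supF k a' a Δ).comap (Lam.re k) ⊓ (supF k a' a Δ).comap (Lam.im k)

/-- Rows ending at the vertex `a` on the right. -/
noncomputable def supRow (a' a : Fin 2) (Δ : ℤ) : Submodule k (LC → Lam k) :=
  Submodule.pi Set.univ fun c => if LC.rv c = a then supL k a' (LC.lv c) Δ else ⊥

theorem Path.append {a'' a' a : Fin 2} : ∀ {w w' : List Gen}, Path a'' a' w → Path a' a w' →
    Path a'' a (w ++ w')
  | [], w', h, h' => by rw [Path] at h; subst h; simpa using h'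
  | g :: w, w', h, h' => ⟨h.1, Path.append h.2 h'⟩

theorem mwt_mul (m m' : M) : mwt (m * m') = mwt m + mwt m' := by
  simp [mwt, toAdd_mul]
  abel

theorem mdeg_mul (m m' : M) : mdeg (m * m') = mdeg m + mdeg m' := by
  simp [mdeg, wdeg]

open scoped Classical in
theorem supF_one (a : Fin 2) : (1 : F k) ∈ supF k a a 0 := by
  rw [supF, MonoidAlgebra.mem_supported']
  intro m hm
  rw [MonoidAlgebra.one_def, MonoidAlgebra.coeff_single, Finsupp.single_apply, if_neg]
  rintro rfl
  exact hm ⟨rfl, by simp [mwt]⟩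

theorem supF_mul {a'' a' a : Fin 2} {Δ Δ' : ℤ} {x y : F k} (hx : x ∈ supF k a'' a' Δ)
    (hy : y ∈ supF k a' a Δ') : x * y ∈ supF k a'' a (Δ + Δ') := by
  classical
  rw [supF, MonoidAlgebra.mem_supported] at hx hy ⊢
  intro m hm
  obtain ⟨m1, h1, m2, h2, rfl⟩ := Finset.mem_mul.1
    (MonoidAlgebra.support_coeff_mul_subset x y (Finset.mem_coe.1 hm))
  refine ⟨?_, ?_⟩
  · simpa using Path.append (hx h1).1 (hy h2).1
  · rw [mwt_mul]; push_cast; rw [(hx h1).2, (hy h2).2]

open scoped Classical in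
theorem supF_sg {a' a : Fin 2} {Δ : ℤ} {x : F k} (hx : x ∈ supF k a' a Δ) :
    sg k x ∈ supF k a' a Δ := by
  rw [← MonoidAlgebra.sum_coeff_single x, map_finsuppSum]
  refine Submodule.sum_mem _ fun m hm => ?_
  have := (MonoidAlgebra.mem_supported.1 hx) hm
  show sg k (MonoidAlgebra.single m (x.coeff m)) ∈ _
  rw [sg_single, supF, MonoidAlgebra.mem_supported']
  intro m' hm'
  rw [MonoidAlgebra.coeff_single, Finsupp.single_apply, if_neg]
  rintro rfl
  exact hm' this

theorem mem_supL {a' a : Fin 2} {Δ : ℤ} {x : Lam k} :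
    x ∈ supL k a' a Δ ↔ Lam.re k x ∈ supF k a' a Δ ∧ Lam.im k x ∈ supF k a' a Δ := Iff.rfl

theorem supL_mul {a'' a' a : Fin 2} {Δ Δ' : ℤ} {x y : Lam k} (hx : x ∈ supL k a'' a' Δ)
    (hy : y ∈ supL k a' a Δ') : x * y ∈ supL k a'' a (Δ + Δ') := by
  rw [mem_supL] at hx hy ⊢
  rw [Lam.re_mul, Lam.im_mul]
  exact ⟨supF_mul k hx.1 hy.1,
    add_mem (supF_mul k hx.1 hy.2) (supF_mul k hx.2 (supF_sg k hy.1))⟩

theorem supL_of {a' a : Fin 2} {Δ : ℤ} {x : F k} (hx : x ∈ supF k a' a Δ) :
    Lam.of k x ∈ supL k a' a Δ := ⟨by simpa using hx, by simp⟩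

theorem supL_u (a : Fin 2) : Lam.u k ∈ supL k a a 0 := by
  rw [mem_supL]; simp [Lam.u, supF_one]

open scoped Classical in
theorem supF_single {a' a : Fin 2} {Δ : ℤ} {m : M} (r : k) (h : m ∈ supSet a' a Δ) :
    MonoidAlgebra.single m r ∈ supF k a' a Δ := by
  rw [supF, MonoidAlgebra.mem_supported']
  intro m' hm'
  rw [MonoidAlgebra.coeff_single, Finsupp.single_apply, if_neg]
  rintro rfl
  exact hm' h

theorem supF_gen (g : Gen) : gen k g ∈ supF k g.tgt g.src g.wt :=
  supF_single k 1 ⟨⟨rfl, by simp [Path]⟩, by simp [mwt]⟩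

theorem supF_tF (a : Fin 2) : tF k ∈ supF k a a 1 :=
  supF_single k 1 ⟨by simp [Path], by simp [mwt]⟩

/-- The entries of a generator of `Φ` have the right supports. -/
theorem phiGen_sup (g : Gen) (c c' : LC) (hc : LC.rv c = g.tgt) :
    phiGen k g c c' ∈
      (if LC.rv c' = g.src then supL k (LC.lv c) (LC.lv c') g.wt else ⊥) := by
  have hX := fun i => supF_gen k (.x i)
  have hP := fun i => supF_gen k (.p i)
  have hR := fun i => supF_gen k (.r i)
  have hQ := fun i => supF_gen k (.q i)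
  have hZ := fun i => supF_gen k (.z i)
  have ht : ∀ a, tF k ∈ supF k a a 1 := supF_tF k
  have hu : ∀ a, Lam.mk k 0 (tF k * tF k) ∈ supL k a a 2 := fun a => by
    rw [mem_supL]; simpa using supF_mul k (ht a) (ht a)
  rcases g with i | j | j | j | a <;> rcases c with _ | i' | _ <;>
    rcases c' with _ | i'' | _ <;>
    simp [LC.rv, LC.lv, Gen.src, Gen.tgt, Gen.wt, phiGen] at hc ⊢
  case x.E.F => split_ifs <;> simp [mem_supL, supF_one]
  case p.F.E =>
    refine sub_mem (by simpa [Gen.wt, Gen.src, Gen.tgt] using supL_mul k (supL_of k (hP j)) (supL_of k (hX i'))) ?_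
    split_ifs
    · exact supL_of k (ht 0)
    · exact zero_mem _
  case p.H.E => exact supL_of k (hR j)
  case r.E.H => exact supL_of k (hP j)
  case q.F.E =>
    refine add_mem (by simpa [Gen.wt, Gen.src, Gen.tgt] using supL_mul k (supL_of k (hQ i')) (supL_of k (hX j))) ?_
    split_ifs
    · exact hu 0
    · exact neg_mem (hu 0)
    · exact zero_mem _
  case q.H.E => simpa [Gen.wt, Gen.src, Gen.tgt] using supL_mul k (supL_of k (hZ 1)) (supL_of k (hX j))
  case z.E.E => subst hc; simpa [Gen.wt, Gen.src, Gen.tgt] using supL_of k (hZ 0)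
  case z.F.H => subst hc; simpa [Gen.wt, Gen.src, Gen.tgt] using supL_of k (hQ i')
  case z.H.H => subst hc; simpa [Gen.wt, Gen.src, Gen.tgt] using supL_of k (hZ 1)

theorem mem_supRow {a' a : Fin 2} {Δ : ℤ} {l : LC → Lam k} :
    l ∈ supRow k a' a Δ ↔
      ∀ c, l c ∈ if LC.rv c = a then supL k a' (LC.lv c) Δ else ⊥ := by
  simp [supRow]

theorem vecMul_phiGen_sup {a' : Fin 2} {Δ : ℤ} (g : Gen) {l : LC → Lam k}
    (hl : l ∈ supRow k a' g.tgt Δ) :
    Matrix.vecMul l (phiGen k g) ∈ supRow k a' g.src (Δ + g.wt) := by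
  rw [mem_supRow] at hl ⊢
  intro c'
  show ∑ c, l c * phiGen k g c c' ∈ _
  refine Submodule.sum_mem _ fun c _ => ?_
  have h1 := hl c
  by_cases hc : LC.rv c = g.tgt
  · rw [if_pos hc] at h1
    have h2 := phiGen_sup k g c c' hc
    split_ifs with h'
    · rw [if_pos h'] at h2
      exact supL_mul k h1 h2
    · rw [if_neg h', Submodule.mem_bot] at h2
      simp [h2]
  · rw [if_neg hc, Submodule.mem_bot] at h1
    simp [h1]

theorem phiF_row_sup {a'' a' a : Fin 2} {Δ Δ' : ℤ} {l : LC → Lam k} {x : F k}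
    (hl : l ∈ supRow k a'' a' Δ) (hx : x ∈ supF k a' a Δ') :
    Matrix.vecMul l (phiF k x) ∈ supRow k a'' a (Δ + Δ') := by
  have hmon : ∀ (w : List Gen) (a' : Fin 2) (Δ : ℤ) (l : LC → Lam k),
      l ∈ supRow k a'' a' Δ → Path a' a w → Matrix.vecMul l
        (phiF k (MonoidAlgebra.single ((FreeMonoid.ofList w, 1) : M) 1))
        ∈ supRow k a'' a (Δ + (w.map Gen.wt).sum) := by
    intro w
    induction w with
    | nil =>
      intro a' Δ l hl hp
      rw [Path] at hp; subst hp
      have : MonoidAlgebra.single ((FreeMonoid.ofList [], 1) : M) (1 : k) = 1 := rfl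
      rw [this]
      simpa using hl
    | cons g w ih =>
      intro a' Δ l hl hp
      obtain ⟨hg, hw⟩ := hp
      subst hg
      have : MonoidAlgebra.single ((FreeMonoid.ofList (g :: w), 1) : M) (1 : k)
          = gen k g * MonoidAlgebra.single ((FreeMonoid.ofList w, 1) : M) 1 := by
        simp only [gen, Algebra.X, MonoidAlgebra.single_mul_single]; simp [FreeMonoid.ofList_cons]
      rw [this, map_mul, phiF_gen, ← Matrix.vecMul_vecMul]
      have h := ih _ _ _ (vecMul_phiGen_sup k g hl) hw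
      simpa [add_assoc] using h
  rw [← MonoidAlgebra.sum_coeff_single x, map_finsuppSum]
  simp only [Finsupp.sum, Matrix.vecMul_sum]
  refine Submodule.sum_mem _ fun m hm => ?_
  obtain ⟨hp, hw⟩ := (MonoidAlgebra.mem_supported.1 hx) hm
  obtain ⟨w, n⟩ := m
  have e : MonoidAlgebra.single ((w, n) : M) (x.coeff (w, n))
      = x.coeff (w, n) • (MonoidAlgebra.single ((w, 1) : M) 1
          * tF k ^ (Multiplicative.toAdd n)) := by
    simp only [tF, tt, MonoidAlgebra.single_pow, MonoidAlgebra.single_mul_single, MonoidAlgebra.smul_single]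
    simp [← ofAdd_nsmul]
  rw [e, map_smul, Matrix.vecMul_smul, map_mul, map_pow, ← Matrix.vecMul_vecMul]
  refine Submodule.smul_mem _ _ ?_
  have h := hmon (FreeMonoid.toList w) a' Δ l hl hp
  simp only [FreeMonoid.ofList_toList] at h
  rw [← hw, mwt]
  generalize Matrix.vecMul l (phiF k (MonoidAlgebra.single ((w, 1) : M) 1)) = l' at h ⊢
  induction Multiplicative.toAdd n with
  | zero => simpa using h
  | succ j ih =>
    rw [phiF_tF] at ih ⊢
    rw [pow_succ, ← Matrix.vecMul_vecMul]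
    rw [mem_supRow] at ih ⊢
    intro c
    have h1 := ih c
    simp only [Matrix.scalar_apply, Matrix.vecMul_diagonal] at h1 ⊢
    split_ifs with hc
    · rw [if_pos hc] at h1
      have := supL_mul k h1 (supL_of k (supF_tF k (LC.lv c)))
      convert this using 2
      push_cast; ring
    · rw [if_neg hc, Submodule.mem_bot] at h1
      simp [h1]

theorem phiL_row_sup {a'' a' a : Fin 2} {Δ Δ' : ℤ} {l : LC → Lam k} {x : Lam k}
    (hl : l ∈ supRow k a'' a' Δ) (hx : x ∈ supL k a' a Δ') :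
    Matrix.vecMul l (phiL k x) ∈ supRow k a'' a (Δ + Δ') := by
  rw [phiL_apply, phiFun, Matrix.vecMul_add, ← Matrix.vecMul_vecMul]
  refine add_mem (phiF_row_sup k hl hx.1) ?_
  have h := phiF_row_sup k hl hx.2
  generalize Matrix.vecMul l (phiF k (Lam.im k x)) = m at h
  rw [mem_supRow] at h ⊢
  intro c
  have h1 := h c
  simp only [phiU, Matrix.vecMul_diagonal, mul_smul_comm]
  split_ifs with hc
  · rw [if_pos hc] at h1
    refine Submodule.smul_mem _ _ ?_
    simpa using supL_mul k h1 (supL_u k (LC.lv c))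
  · rw [if_neg hc, Submodule.mem_bot] at h1
    simp [h1]

end P195.Algebra
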