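import Vale.Agent.P195.Algebra.Lam

/-!
P195: `Φ` as an algebra map on `Λ`, and the algebra `T∞ = Λ ⊕ L[4]`.
-/

namespace P195.Algebra

variable (k : Type) [Field k]

theorem phiF_tF : phiF k (tF k) = Matrix.scalar LC (Lam.of k (tF k)) := ext_tF _ _ _
theorem phiF_gen (g : Gen) : phiF k (gen k g) = phiGen k g := ext_gen _ _ _ g

theorem LC.sgn_mul_self (c : LC) : LC.sgn k c * LC.sgn k c = 1 := by
  simp [LC.sgn, ← pow_add, ← two_mul]

/-- Commutation of `Φ u` with `Φ a`. -/
theorem phiU_phiF (a : F k) : phiU k * phiF k a = phiF k (sg k a) * phiU k := by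
  induction a using F.induction with
  | one => simp
  | t =>
    rw [sg_tF, phiF_tF]
    exact (Matrix.scalar_comm _ (Lam.tF_comm k) _).symm
  | gen g =>
    rw [sg_gen, map_smul, phiF_gen]
    ext c c' : 1
    simp only [phiU, Matrix.diagonal_mul, Matrix.mul_diagonal, Matrix.smul_apply]
    cases g <;> cases c <;> cases c' <;>
      simp [phiGen, LC.sgn, LC.deg, Gen.deg] <;>
      (refine Lam.ext ?_ ?_) <;> simp [Lam.u, Gen.deg] <;> split_ifs <;> simp [Gen.deg]
  | mul a b ha hb => rw [map_mul, map_mul, map_mul, ← mul_assoc, ha, mul_assoc, hb, mul_assoc]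
  | add a b ha hb => rw [map_add, map_add, map_add, mul_add, add_mul, ha, hb]
  | smul c a ha => rw [map_smul, map_smul, map_smul, mul_smul_comm, smul_mul_assoc, ha]

theorem phiU_sq : phiU k * phiU k = 0 := by
  have h : Lam.u k * Lam.u k = 0 := Lam.ext (by simp [Lam.u]) (by simp [Lam.u])
  rw [phiU, Matrix.diagonal_mul_diagonal]
  simp [h]

/-- `a ↦ a u` on the `u`-component. -/
noncomputable def phiG : Tw (sg1 k) →ₗ[k] Matrix LC LC (Lam k) where
  toFun m := phiF k (m.row ()) * phiU k
  map_add' x y := by simp [add_mul]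
  map_smul' c x := by simp

/-- `Φ` on `Λ`. -/
noncomputable def phiL : Lam k →ₐ[k] Matrix LC LC (Lam k) :=
  TrivSqZeroExt.lift (phiF k) (phiG k)
    (fun x y => by
      show phiF k (x.row ()) * phiU k * (phiF k (y.row ()) * phiU k) = 0
      rw [mul_assoc, ← mul_assoc (phiU k), phiU_phiF, mul_assoc, phiU_sq, mul_zero, mul_zero])
    (fun r x => by
      show phiF k ((r • x).row ()) * phiU k = phiF k r * (phiF k (x.row ()) * phiU k)
      simp [mul_assoc])
    (fun r x => by
      show phiF k ((MulOpposite.op r • x).row ()) * phiU k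
        = phiF k (x.row ()) * phiU k * phiF k r
      rw [mul_assoc, phiU_phiF, ← mul_assoc, ← map_mul]
      congr 2
      show ∑ j, x.row j * sg1 k r j () = x.row () * sg k r
      simp [sg1])

theorem phiL_apply (x : Lam k) : phiL k x = phiFun k x := rfl

/-- The algebra `T∞`; an element is `(λ, l)`, standing for `λ + ∑ l c ℓ_c`. -/
abbrev Tinf := Ext1 (phiL k)

/-- The part in `Λ`. -/
noncomputable def Tinf.lam : Tinf k →ₗ[k] Lam k where
  toFun x := x.fst
  map_add' _ _ := rfl
  map_smul' _ _ := rfl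

/-- The coefficient of a cell. -/
noncomputable def Tinf.cell (c : LC) : Tinf k →ₗ[k] Lam k where
  toFun x := x.snd.row c
  map_add' _ _ := rfl
  map_smul' _ _ := rfl

/-- `(λ, l)`. -/
noncomputable def Tinf.mk (a : Lam k) (l : LC → Lam k) : Tinf k := Ext1.mk a l

/-- The differential. -/
noncomputable def dT : Tinf k →ₗ[k] Tinf k where
  toFun x := Tinf.mk k (dL k (Tinf.lam k x)) fun c =>
    dL k (Tinf.cell k c x) + ∑ c', sgL k (Tinf.cell k c' x) * Nm k c' c
  map_add' x y := by
    simp only [Tinf.mk, Ext1.mk, map_add]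
    ext1
    · simp
    · refine Tw.ext (funext fun c => ?_)
      simp [add_mul, Finset.sum_add_distrib]
      abel
  map_smul' c x := by
    simp only [Tinf.mk, Ext1.mk, map_smul]
    ext1
    · simp
    · refine Tw.ext (funext fun i => ?_)
      simp [Finset.smul_sum]

/-- The sign map. -/
noncomputable def sgT : Tinf k →ₗ[k] Tinf k where
  toFun x := Tinf.mk k (sgL k (Tinf.lam k x)) fun c =>
    LC.sgn k c • sgL k (Tinf.cell k c x)
  map_add' x y := by
    simp only [Tinf.mk, Ext1.mk, map_add]
    ext1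
    · simp
    · refine Tw.ext (funext fun c => ?_)
      simp
  map_smul' c x := by
    simp only [Tinf.mk, Ext1.mk, map_smul]
    ext1
    · simp
    · refine Tw.ext (funext fun i => ?_)
      simp [smul_comm c]

end P195.Algebra
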